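import Mathlib

namespace Vale.Agent.P040

open Polynomial Finset

variable {K : Type} [Field K]

/-- bidegree bound: degree `< p` in the inner variable, `< q` in the outer variable -/
def Bd (p q : ℕ) (f : K[X][X]) : Prop :=
  ∀ i j, (p ≤ i ∨ q ≤ j) → (f.coeff j).coeff i = 0

theorem Bd.mono {p q p' q' : ℕ} {f : K[X][X]} (h : Bd p q f) (hp : p ≤ p') (hq : q ≤ q') :
    Bd p' q' f := fun i j hij => h i j (by omega)

theorem Bd.add {p q : ℕ} {f g : K[X][X]} (h : Bd p q f) (h' : Bd p q g) : Bd p q (f + g) :=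
  fun i j hij => by simp [h i j hij, h' i j hij]

theorem Bd.sub {p q : ℕ} {f g : K[X][X]} (h : Bd p q f) (h' : Bd p q g) : Bd p q (f - g) :=
  fun i j hij => by simp [h i j hij, h' i j hij]

theorem Bd.eq_zero_left {q : ℕ} {f : K[X][X]} (h : Bd 0 q f) : f = 0 := by
  ext j i
  simpa using h i j (Or.inl (Nat.zero_le _))

theorem Bd.eq_zero_right {p : ℕ} {f : K[X][X]} (h : Bd p 0 f) : f = 0 := by
  ext j i
  simpa using h i j (Or.inr (Nat.zero_le _))

theorem Bd.mul {p q p' q' : ℕ} {f g : K[X][X]} (h : Bd (p + 1) (q + 1) f) (h' : Bd p' q' g) :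
    Bd (p + p') (q + q') (f * g) := by
  intro i j hij
  rw [coeff_mul, finsetSum_coeff]
  refine Finset.sum_eq_zero fun y hy => ?_
  rw [coeff_mul]
  refine Finset.sum_eq_zero fun x hx => ?_
  have h1 := HasAntidiagonal.mem_antidiagonal.1 hy
  have h2 := HasAntidiagonal.mem_antidiagonal.1 hx
  by_cases hc : p + 1 ≤ x.1 ∨ q + 1 ≤ y.1
  · rw [h _ _ hc, zero_mul]
  · rw [h' x.2 y.2 (by omega), mul_zero]

theorem bd_monomial (i j : ℕ) (c : K) : Bd (i + 1) (j + 1) (monomial j (monomial i c)) := by
  intro i' j' hij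
  rw [coeff_monomial]
  split_ifs with h
  · rw [coeff_monomial, if_neg (by omega)]
  · simp

theorem evalEval_mon (x y : K) (i j : ℕ) (c : K) :
    (monomial j (monomial i c) : K[X][X]).evalEval x y = c * x ^ i * y ^ j := by
  simp [evalEval, eval_monomial]

/-- polynomial with prescribed coefficients -/
noncomputable def toPoly (p q : ℕ) : (Fin p × Fin q → K) →ₗ[K] K[X][X] where
  toFun v := ∑ ij : Fin p × Fin q, monomial (ij.2 : ℕ) (monomial (ij.1 : ℕ) (v ij))
  map_add' v w := by simp [Finset.sum_add_distrib]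
  map_smul' c v := by
    simp [Finset.smul_sum, smul_monomial]

theorem toPoly_apply (p q : ℕ) (v : Fin p × Fin q → K) :
    toPoly p q v = ∑ ij : Fin p × Fin q, monomial (ij.2 : ℕ) (monomial (ij.1 : ℕ) (v ij)) := rfl

theorem bd_toPoly (p q : ℕ) (v : Fin p × Fin q → K) : Bd p q (toPoly p q v) := by
  intro i j hij
  rw [toPoly_apply, finsetSum_coeff, finsetSum_coeff]
  refine Finset.sum_eq_zero fun ij _ => ?_
  exact bd_monomial _ _ _ i j (by have := ij.1.2; have := ij.2.2; omega)

theorem coeff_toPoly (p q : ℕ) (v : Fin p × Fin q → K) (ij : Fin p × Fin q) :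
    ((toPoly p q v).coeff ij.2).coeff ij.1 = v ij := by
  rw [toPoly_apply, finsetSum_coeff, finsetSum_coeff, Finset.sum_eq_single ij]
  · simp
  · intro b _ hb
    rw [coeff_monomial]
    split_ifs with h
    · rw [coeff_monomial, if_neg]
      intro h'
      exact hb (Prod.ext (Fin.ext h') (Fin.ext h))
    · simp
  · simp

theorem toPoly_eq_zero {p q : ℕ} {v : Fin p × Fin q → K} (h : toPoly p q v = 0) : v = 0 := by
  funext ij
  rw [← coeff_toPoly p q v ij, h]
  simp

theorem Bd.eq_toPoly {p q : ℕ} {f : K[X][X]} (h : Bd p q f) :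
    f = toPoly p q (fun ij => (f.coeff ij.2).coeff ij.1) := by
  ext j i
  by_cases hc : p ≤ i ∨ q ≤ j
  · rw [h i j hc, bd_toPoly p q _ i j hc]
  · have := coeff_toPoly p q (fun ij => (f.coeff ij.2).coeff ij.1)
      (⟨i, by omega⟩, ⟨j, by omega⟩)
    exact this.symm

theorem evalEval_toPoly (p q : ℕ) (v : Fin p × Fin q → K) (x y : K) :
    (toPoly p q v).evalEval x y = ∑ ij : Fin p × Fin q, v ij * x ^ (ij.1 : ℕ) * y ^ (ij.2 : ℕ) := by
  rw [toPoly_apply, evalEval_finsetSum]
  exact Finset.sum_congr rfl fun ij _ => evalEval_mon _ _ _ _ _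

theorem Bd.evalEval_eq {p q : ℕ} {f : K[X][X]} (h : Bd p q f) (x y : K) :
    f.evalEval x y = ∑ ij : Fin p × Fin q,
      (f.coeff ij.2).coeff ij.1 * x ^ (ij.1 : ℕ) * y ^ (ij.2 : ℕ) := by
  conv_lhs => rw [h.eq_toPoly]
  rw [evalEval_toPoly]

theorem Bd.exists_swap {p q : ℕ} {f : K[X][X]} (h : Bd p q f) :
    ∃ g : K[X][X], Bd q p g ∧ ∀ x y, g.evalEval x y = f.evalEval y x := by
  refine ⟨toPoly q p (fun ij => (f.coeff ij.1).coeff ij.2), bd_toPoly _ _ _, fun x y => ?_⟩
  rw [evalEval_toPoly, h.evalEval_eq]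
  refine Fintype.sum_equiv (Equiv.prodComm _ _) _ _ fun ij => ?_
  simp only [Equiv.prodComm_apply, Prod.fst_swap, Prod.snd_swap]
  ring

theorem coeff_diag_mul (g : K[X][X]) (i j : ℕ) :
    (((X - C X) * g).coeff (j + 1)).coeff (i + 1)
      = (g.coeff j).coeff (i + 1) - (g.coeff (j + 1)).coeff i := by
  rw [sub_mul, coeff_sub, coeff_X_mul, coeff_C_mul, coeff_sub, coeff_X_mul]

theorem coeff_diag_mul_zero_left (g : K[X][X]) (j : ℕ) :
    (((X - C X) * g).coeff (j + 1)).coeff 0 = (g.coeff j).coeff 0 := by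
  rw [sub_mul, coeff_sub, coeff_X_mul, coeff_C_mul, coeff_sub]
  simp

theorem coeff_diag_mul_zero_right (g : K[X][X]) (i : ℕ) :
    (((X - C X) * g).coeff 0).coeff (i + 1) = -(g.coeff 0).coeff i := by
  rw [sub_mul, coeff_sub, coeff_C_mul, coeff_sub, coeff_X_mul]
  simp

theorem Bd.div {p q : ℕ} {g : K[X][X]} (h : Bd (p + 1) (q + 1) ((X - C X) * g)) : Bd p q g := by
  have h1 : ∀ j i, p ≤ i → (g.coeff j).coeff i = 0 := by
    intro j
    induction j with
    | zero =>
      intro i hi
      have := h (i + 1) 0 (by omega)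
      rw [coeff_diag_mul_zero_right] at this
      exact neg_eq_zero.1 this
    | succ j ih =>
      intro i hi
      have := h (i + 1) (j + 1) (by omega)
      rw [coeff_diag_mul, ih (i + 1) (by omega), zero_sub] at this
      exact neg_eq_zero.1 this
  have h2 : ∀ i j, q ≤ j → (g.coeff j).coeff i = 0 := by
    intro i
    induction i with
    | zero =>
      intro j hj
      have := h 0 (j + 1) (by omega)
      rwa [coeff_diag_mul_zero_left] at this
    | succ i ih =>
      intro j hj
      have := h (i + 1) (j + 1) (by omega)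
      rwa [coeff_diag_mul, ih (j + 1) (by omega), sub_zero] at this
  intro i j hij
  rcases hij with hi | hj
  · exact h1 j i hi
  · exact h2 i j hj

theorem evalEval_diag (f : K[X][X]) (x : K) : (f.eval X).eval x = f.evalEval x x := by
  induction f using Polynomial.induction_on' with
  | add p q hp hq => simp [hp, hq]
  | monomial n a => simp [evalEval, eval_monomial]

/-- a polynomial of small bidegree vanishing at many diagonal points is divisible by `Y - X` -/
theorem Bd.exists_div {m p q : ℕ} {s : Fin m → K} (hs : Function.Injective s) {f : K[X][X]}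
    (h : Bd (p + 1) (q + 1) f) (hpq : p + q < m) (h0 : ∀ a, f.evalEval (s a) (s a) = 0) :
    ∃ g, f = (X - C X) * g := by
  have hdeg : (f.eval X).natDegree ≤ p + q := by
    rw [h.eq_toPoly, toPoly_apply, eval_finsetSum]
    refine natDegree_sum_le_of_forall_le _ _ fun ij _ => ?_
    rw [eval_monomial]
    refine natDegree_mul_le.trans ?_
    have h1 := natDegree_monomial_le (R := K) ((f.coeff ij.2).coeff ij.1) (m := (ij.1 : ℕ))
    have h2 := natDegree_X_pow_le (R := K) (ij.2 : ℕ)
    have := ij.1.2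
    have := ij.2.2
    omega
  have hz : f.eval X = 0 := by
    refine eq_zero_of_natDegree_lt_card_of_eval_eq_zero _ hs (fun a => ?_) (by simpa using by omega)
    rw [evalEval_diag, h0]
  exact dvd_iff_isRoot.2 hz

theorem Bd.map_eq_zero {m p q : ℕ} {s : Fin m → K} (hs : Function.Injective s) {f : K[X][X]}
    (h : Bd p q f) (hq : q ≤ m) (x : K) (h0 : ∀ a, f.evalEval x (s a) = 0) :
    f.map (evalRingHom x) = 0 := by
  have hdeg : (f.map (evalRingHom x)).degree < m := by
    rw [degree_lt_iff_coeff_zero]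
    intro j hj
    rw [coeff_map]
    have : f.coeff j = 0 := by
      ext i
      simpa using h i j (Or.inr (by omega))
    simp [this]
  refine eq_zero_of_degree_lt_of_eval_index_eq_zero (Finset.univ : Finset (Fin m)) hs.injOn
    (by simpa using hdeg) fun a _ => ?_
  rw [map_evalRingHom_eval, h0]

theorem Bd.eval_eq_zero {m p q : ℕ} {s : Fin m → K} (hs : Function.Injective s) {f : K[X][X]}
    (h : Bd p q f) (hp : p ≤ m) (y : K) (h0 : ∀ a, f.evalEval (s a) y = 0) :
    f.eval (C y) = 0 := by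
  have hdeg : (f.eval (C y)).degree < m := by
    rw [degree_lt_iff_coeff_zero]
    intro i hi
    rw [eval_eq_sum_range, finsetSum_coeff]
    refine Finset.sum_eq_zero fun j _ => ?_
    rw [← C_pow, coeff_mul_C, h i j (Or.inl (by omega)), zero_mul]
  exact eq_zero_of_degree_lt_of_eval_index_eq_zero (Finset.univ : Finset (Fin m)) hs.injOn
    (by simpa using hdeg) fun a _ => h0 a

/-- The vanishing lemma. -/
theorem vanish {m : ℕ} {s : Fin m → K} (hs : Function.Injective s) :
    ∀ (P Q : ℕ), P + Q ≤ m + 1 → ∀ S : Set K[X][X], (∀ f ∈ S, Bd P Q f) →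
      (∀ f ∈ S, ∀ a, ∃ g ∈ S, ∃ h ∈ S, f = g + h ∧ g.map (evalRingHom (s a)) = 0 ∧
        h.eval (C (s a)) = 0) → ∀ f ∈ S, f = 0 := by
  intro P
  induction P with
  | zero => exact fun Q _ S hS _ f hf => (hS f hf).eq_zero_left
  | succ P ih =>
    intro Q hPQ S hS hd
    rcases Q with _ | Q
    · exact fun f hf => (hS f hf).eq_zero_right
    have hdiv : ∀ f ∈ S, ∃ g, f = (X - C X) * g := by
      intro f hf
      refine (hS f hf).exists_div hs (by omega) fun a => ?_
      obtain ⟨g, _, h, _, rfl, hg, hh⟩ := hd f hf a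
      rw [evalEval_add, ← map_evalRingHom_eval, hg, evalEval, hh]
      simp
    have hne : (X - C X : K[X][X]) ≠ 0 := X_sub_C_ne_zero _
    have := ih Q (by omega) {g | (X - C X) * g ∈ S} (fun g hg => (hS _ hg).div) (by
      intro f hf a
      obtain ⟨g, hg, h, hh, e, hg0, hh0⟩ := hd _ hf a
      obtain ⟨g1, rfl⟩ := hdiv g hg
      obtain ⟨h1, rfl⟩ := hdiv h hh
      refine ⟨g1, hg, h1, hh, ?_, ?_, ?_⟩
      · apply mul_left_cancel₀ hne
        rw [e, mul_add]
      · rw [Polynomial.map_mul] at hg0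
        refine (mul_eq_zero.1 hg0).resolve_left ?_
        simpa using X_sub_C_ne_zero (s a)
      · rw [eval_mul] at hh0
        refine (mul_eq_zero.1 hh0).resolve_left ?_
        simp only [eval_sub, eval_X, eval_C]
        intro h
        exact X_sub_C_ne_zero (s a) (by rw [← neg_sub, h, neg_zero]))
    intro f hf
    obtain ⟨g, rfl⟩ := hdiv f hf
    rw [this g hf, mul_zero]

/-- Lagrange weights -/
noncomputable def wt {n : ℕ} (t : Fin n → K) (b : Fin n) : K := Lagrange.nodalWeight univ t b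

theorem wt_ne_zero {n : ℕ} {t : Fin n → K} (ht : Function.Injective t) (b : Fin n) :
    wt t b ≠ 0 := Lagrange.nodalWeight_ne_zero ht.injOn (mem_univ _)

theorem sum_wt_pow {n : ℕ} {t : Fin n → K} (ht : Function.Injective t) {k : ℕ} (hk : k + 2 ≤ n) :
    ∑ b, wt t b * t b ^ k = 0 := by
  have h := Lagrange.coeff_eq_sum (s := (univ : Finset (Fin n))) (v := t) ht.injOn
    (P := X ^ k) (by
      rw [degree_X_pow, card_univ, Fintype.card_fin]
      exact_mod_cast (by omega : k < n))
  rw [coeff_X_pow, if_neg (by simp; omega)] at h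
  rw [h]
  refine Finset.sum_congr rfl fun b _ => ?_
  rw [wt, Lagrange.nodalWeight, prod_inv_distrib, eval_pow, eval_X, div_eq_mul_inv, mul_comm]

theorem Bd.sum_wt_right {n p q : ℕ} {t : Fin n → K} (ht : Function.Injective t) {f : K[X][X]}
    (h : Bd p q f) (hq : q ≤ n - 1) (x : K) : ∑ b, wt t b * f.evalEval x (t b) = 0 := by
  simp_rw [h.evalEval_eq, Finset.mul_sum]
  rw [Finset.sum_comm]
  refine Finset.sum_eq_zero fun ij _ => ?_
  have := sum_wt_pow ht (k := ij.2) (by have := ij.2.2; omega)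
  calc _ = (f.coeff ij.2).coeff ij.1 * x ^ (ij.1 : ℕ) * ∑ b, wt t b * t b ^ (ij.2 : ℕ) := by
        rw [Finset.mul_sum]; exact Finset.sum_congr rfl fun b _ => by ring
    _ = 0 := by rw [this, mul_zero]

theorem Bd.sum_wt_left {n p q : ℕ} {t : Fin n → K} (ht : Function.Injective t) {f : K[X][X]}
    (h : Bd p q f) (hp : p ≤ n - 1) (y : K) : ∑ b, wt t b * f.evalEval (t b) y = 0 := by
  obtain ⟨g, hg, hg'⟩ := h.exists_swap
  simp_rw [← hg']
  exact hg.sum_wt_right ht hp y

/-- interpolation: vanishing moments give small bidegree -/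
theorem exists_interp {m P Q : ℕ} {s : Fin m → K} (hs : Function.Injective s)
    (h : Fin m → Fin m → K) (hr : ∀ a, ∀ j < Q, ∑ a', s a' ^ j * h a a' = 0)
    (hcol : ∀ a', ∀ i < P, ∑ a, s a ^ i * h a a' = 0) :
    ∃ f : K[X][X], Bd (m - P) (m - Q) f ∧
      ∀ a a', wt s a * wt s a' * f.evalEval (s a) (s a') = h a a' := by
  classical
  set N : Fin m → K[X] := fun a => Lagrange.nodal (univ.erase a) s with hN
  have hNd : ∀ a, N a = Lagrange.nodal univ s /ₘ (X - C (s a)) := by
    intro a
    rw [Lagrange.nodal_eq_mul_nodal_erase (mem_univ a), mul_divByMonic_cancel_left _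
      (monic_X_sub_C _)]
  have hNc : ∀ a k, (N a).coeff k = ∑ i ∈ Icc (k + 1) m,
      s a ^ (i - (k + 1)) * (Lagrange.nodal univ s).coeff i := by
    intro a k
    rw [hNd, coeff_divByMonic_X_sub_C, Lagrange.natDegree_nodal, card_univ, Fintype.card_fin]
  have hmom : ∀ (R : ℕ) (g : Fin m → K), (∀ j < R, ∑ a, s a ^ j * g a = 0) →
      ∀ k, m - R ≤ k → ∑ a, (N a).coeff k * g a = 0 := by
    intro R g hg k hk
    simp_rw [hNc, Finset.sum_mul]
    rw [Finset.sum_comm]
    refine Finset.sum_eq_zero fun i hi => ?_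
    have := hg (i - (k + 1)) (by have := mem_Icc.1 hi; omega)
    calc _ = (Lagrange.nodal univ s).coeff i * ∑ a, s a ^ (i - (k + 1)) * g a := by
          rw [Finset.mul_sum]; exact Finset.sum_congr rfl fun b _ => by ring
      _ = 0 := by rw [this, mul_zero]
  have hNe : ∀ a c, wt s c * (N a).eval (s c) = if a = c then 1 else 0 := by
    intro a c
    split_ifs with hac
    · subst hac
      have := wt_ne_zero hs a
      rw [wt, Lagrange.nodalWeight_eq_eval_nodal_erase_inv] at this ⊢
      exact inv_mul_cancel₀ (fun h => this (by rw [h, inv_zero]))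
    · rw [Lagrange.eval_nodal_at_node (mem_erase.2 ⟨Ne.symm hac, mem_univ _⟩), mul_zero]
  refine ⟨∑ a, ∑ a', C (C (h a a') * N a) * (N a').map C, ?_, ?_⟩
  · intro i j hij
    simp only [finsetSum_coeff, coeff_C_mul, coeff_map, coeff_mul_C]
    rcases hij with hi | hj
    · rw [Finset.sum_comm]
      refine Finset.sum_eq_zero fun a' _ => ?_
      have := hmom P (fun a => h a a') (hcol a') i hi
      calc _ = (N a').coeff j * ∑ a, (N a).coeff i * h a a' := by
            rw [Finset.mul_sum]; exact Finset.sum_congr rfl fun b _ => by ring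
        _ = 0 := by rw [this, mul_zero]
    · refine Finset.sum_eq_zero fun a _ => ?_
      have := hmom Q (fun a' => h a a') (hr a) j hj
      calc _ = (N a).coeff i * ∑ a', (N a').coeff j * h a a' := by
            rw [Finset.mul_sum]; exact Finset.sum_congr rfl fun b _ => by ring
        _ = 0 := by rw [this, mul_zero]
  · intro c c'
    simp only [evalEval_finsetSum, evalEval_mul, evalEval_C, evalEval_map_C, eval_mul, eval_C,
      Finset.mul_sum]
    calc _ = ∑ a, ∑ a', h a a' * (wt s c * (N a).eval (s c)) * (wt s c' * (N a').eval (s c')) :=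
          Finset.sum_congr rfl fun a _ => Finset.sum_congr rfl fun a' _ => by ring
      _ = h c c' := by simp [hNe]

end Vale.Agent.P040
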