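import Vale.Agent.P040.Biv

namespace Vale.Agent.P040

open Polynomial Finset

variable {K : Type} [Field K]

/-- an additive map satisfying the Leibniz rule -/
structure IsDer (D : K →+ K) : Prop where
  mul : ∀ x y, D (x * y) = x * D y + D x * y

theorem IsDer.one {D : K →+ K} (h : IsDer D) : D 1 = 0 := by
  have := h.mul 1 1
  simp only [mul_one, one_mul] at this
  linear_combination -this

theorem IsDer.pow {D : K →+ K} (h : IsDer D) (x : K) (k : ℕ) :
    D (x ^ (k + 1)) = (k + 1) * x ^ k * D x := by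
  induction k with
  | zero => simp
  | succ k ih =>
    rw [pow_succ, h.mul, ih]
    push_cast
    ring

theorem IsDer.mul_sq {D : K →+ K} (h : IsDer D) (h2 : (2 : K) = 0) (g a : K) :
    D (g * a ^ 2) = D g * a ^ 2 := by
  rw [h.mul, sq, h.mul]
  linear_combination (g * a * D a) * h2

theorem IsDer.eval {D : K →+ K} (h : IsDer D) (f : K[X]) (x : K) (N : ℕ) (hN : f.natDegree < N) :
    D (f.eval x) = ∑ i ∈ range N, D (f.coeff i) * x ^ i + f.derivative.eval x * D x := by
  have h1 : f.derivative.eval x = ∑ i ∈ range N, f.coeff i * (i * x ^ (i - 1)) := by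
    conv_lhs => rw [f.as_sum_range' N hN]
    rw [map_sum, eval_finsetSum]
    refine Finset.sum_congr rfl fun i _ => ?_
    rw [derivative_monomial, eval_monomial]
    ring
  rw [h1, eval_eq_sum_range' hN, map_sum, Finset.sum_mul, ← Finset.sum_add_distrib]
  refine Finset.sum_congr rfl fun i _ => ?_
  rw [h.mul]
  rcases i with _ | i
  · simp [h.one]
  · rw [h.pow]
    push_cast
    ring

theorem sum_range_even_odd (f : ℕ → K) (N : ℕ) :
    ∑ i ∈ range (2 * N), f i = ∑ i ∈ range N, f (2 * i) + ∑ i ∈ range N, f (2 * i + 1) := by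
  induction N with
  | zero => simp
  | succ N ih =>
    rw [show 2 * (N + 1) = 2 * N + 1 + 1 by ring, sum_range_succ, sum_range_succ, ih,
      sum_range_succ, sum_range_succ]
    ring

section

variable {n : ℕ} {t : Fin n → K} (ht : Function.Injective t) (h2 : (2 : K) = 0)
  (hD : ∀ v : Fin n → K, ∃ D : K →+ K, IsDer D ∧ ∀ b, D (t b) = v b)

include h2 hD in
theorem ind1 (a : Fin n → K) (h : ∑ b, t b * a b ^ 2 = 0) (b : Fin n) : a b = 0 := by
  obtain ⟨D, hD1, hD2⟩ := hD (fun c => if c = b then 1 else 0)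
  have := congrArg D h
  simp only [map_sum, hD1.mul_sq h2, hD2, map_zero, ite_mul, one_mul, zero_mul,
    Finset.sum_ite_eq', mem_univ, if_true] at this
  exact pow_eq_zero_iff (two_ne_zero) |>.1 this

include ht hD in
theorem exists_dual_der (k : ℕ) (hk : k < n) : ∃ D : K →+ K, IsDer D ∧
    ∀ i, D ((Lagrange.nodal univ t).coeff i) = if i = k then 1 else 0 := by
  classical
  obtain ⟨D, hD1, hD2⟩ := hD (fun b => -(wt t b * t b ^ k))
  refine ⟨D, hD1, ?_⟩
  set f := Lagrange.nodal univ t with hf
  have hdeg : f.natDegree = n := by simp [hf, Lagrange.natDegree_nodal]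
  have hn : f.coeff n = 1 := by
    have : f.Monic := Lagrange.nodal_monic
    rw [← hdeg]; exact this
  have hb : ∀ b, ∑ i : Fin n, (D (f.coeff i) - if (i : ℕ) = k then 1 else 0) * t b ^ (i : ℕ) = 0 := by
    intro b
    have h1 := hD1.eval f (t b) (n + 1) (by omega)
    rw [Lagrange.eval_nodal_at_node (mem_univ b), map_zero, sum_range_succ, hn, hD1.one, hD2]
      at h1
    have h3 : f.derivative.eval (t b) * wt t b = 1 := by
      have := wt_ne_zero ht b
      rw [wt, Lagrange.nodalWeight_eq_eval_derivative_nodal (mem_univ b)] at this ⊢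
      exact mul_inv_cancel₀ (fun h => this (by rw [h, inv_zero]))
    simp only [sub_mul, Finset.sum_sub_distrib]
    rw [Fin.sum_univ_eq_sum_range (fun i => D (f.coeff i) * t b ^ i),
      Fin.sum_univ_eq_sum_range (fun i => (if i = k then 1 else 0) * t b ^ i)]
    simp only [ite_mul, one_mul, zero_mul, Finset.sum_ite_eq', mem_range, hk, if_true]
    linear_combination -h1 + t b ^ k * h3
  have := Matrix.eq_zero_of_forall_index_sum_mul_pow_eq_zero ht hb
  intro i
  rcases lt_trichotomy i n with hi | hi | hi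
  · have := congrFun this ⟨i, hi⟩
    simpa [sub_eq_zero] using this
  · subst hi
    rw [hn, hD1.one, if_neg (by omega)]
  · rw [coeff_eq_zero_of_natDegree_lt (by omega), map_zero, if_neg (by omega)]

include ht h2 hD in
theorem ind0 (N : ℕ) (g : ℕ → ℕ) (hg : Function.Injective g) (a : ℕ → K)
    (h : ∑ j ∈ range N, (Lagrange.nodal univ t).coeff (g j) * a j ^ 2 = 0) :
    ∀ j < N, g j ≤ n → a j = 0 := by
  set f := Lagrange.nodal univ t with hf
  have hdeg : f.natDegree = n := by simp [hf, Lagrange.natDegree_nodal]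
  have hn : f.coeff n = 1 := by
    have : f.Monic := Lagrange.nodal_monic
    rw [← hdeg]; exact this
  have h1 : ∀ j < N, g j < n → a j = 0 := by
    intro j hj hgj
    obtain ⟨D, hD1, hD2⟩ := exists_dual_der ht hD (g j) hgj
    have := congrArg D h
    simp only [map_sum, hD1.mul_sq h2, map_zero, hf, hD2, hg.eq_iff, ite_mul, one_mul, zero_mul,
      Finset.sum_ite_eq', mem_range, hj, if_true] at this
    exact pow_eq_zero_iff (two_ne_zero) |>.1 this
  intro j hj hgj
  rcases hgj.lt_or_eq with hlt | heq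
  · exact h1 j hj hlt
  · rw [Finset.sum_eq_single j, heq, hn, one_mul] at h
    · exact pow_eq_zero_iff (two_ne_zero) |>.1 h
    · intro i hi hij
      have : g i ≠ n := fun h => hij (hg (h.trans heq.symm))
      rcases this.lt_or_gt with h' | h'
      · rw [h1 i (mem_range.1 hi) h']; simp
      · rw [coeff_eq_zero_of_natDegree_lt (by omega), zero_mul]
    · intro h'
      exact absurd (mem_range.2 hj) h'

include ht h2 hD in
theorem ind2 (N : ℕ) (a : ℕ → ℕ → K)
    (h : ∑ i ∈ range N, ∑ j ∈ range N, (Lagrange.nodal univ t).coeff (2 * i) *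
      (Lagrange.nodal univ t).coeff (2 * j + 1) * a i j ^ 2 = 0) :
    ∀ i < N, 2 * i ≤ n → ∀ j < N, 2 * j + 1 ≤ n → a i j = 0 := by
  set f := Lagrange.nodal univ t with hf
  have hdeg : f.natDegree = n := by simp [hf, Lagrange.natDegree_nodal]
  have hn : f.coeff n = 1 := by
    have : f.Monic := Lagrange.nodal_monic
    rw [← hdeg]; exact this
  have hinj : Function.Injective fun j : ℕ => 2 * j + 1 := fun x y h => by
    simp only at h; omega
  have h1 : ∀ i < N, 2 * i < n → ∀ j < N, 2 * j + 1 ≤ n → a i j = 0 := by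
    intro i hi hgi
    obtain ⟨D, hD1, hD2⟩ := exists_dual_der ht hD (2 * i) hgi
    have := congrArg D h
    have e : ∀ i' j, D (f.coeff (2 * i') * f.coeff (2 * j + 1))
        = if i' = i then f.coeff (2 * j + 1) else 0 := by
      intro i' j
      rw [hD1.mul, hD2, hD2, if_neg (by omega)]
      by_cases hii : i' = i
      · simp [hii]
      · rw [if_neg (by omega), if_neg hii]; simp
    simp only [map_sum, hD1.mul_sq h2, map_zero, e, ite_mul, zero_mul] at this
    rw [Finset.sum_comm] at this
    simp only [Finset.sum_ite_eq', mem_range, hi, if_true] at this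
    exact ind0 ht h2 hD N _ hinj (a i) this
  intro i hi hgi
  rcases hgi.lt_or_eq with hlt | heq
  · exact h1 i hi hlt
  · rw [Finset.sum_eq_single i, heq, hn] at h
    · simp only [one_mul] at h
      exact ind0 ht h2 hD N _ hinj (a i) h
    · intro i' hi' hij
      refine Finset.sum_eq_zero fun j hj => ?_
      have : 2 * i' ≠ n := by omega
      rcases this.lt_or_gt with h' | h'
      · by_cases hj' : 2 * j + 1 ≤ n
        · rw [h1 i' (mem_range.1 hi') h' j (mem_range.1 hj) hj']; simp
        · rw [coeff_eq_zero_of_natDegree_lt (n := 2 * j + 1) (by omega)]; simp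
      · rw [coeff_eq_zero_of_natDegree_lt (by omega), zero_mul, zero_mul]
    · intro h'
      exact absurd (mem_range.2 hi) h'

include ht h2 hD in
theorem rel_lemma (a : Fin n → Fin n → K)
    (h : ∑ b, ∑ b', t b * wt t b * wt t b' * a b b' ^ 2 = 0) (i : ℕ) (hi : 2 * i ≤ n) (j : ℕ)
    (hj : 2 * j + 1 ≤ n) :
    ∑ b, ∑ b', a b b' * wt t b * wt t b' * t b ^ i * t b' ^ j = 0 := by
  classical
  set f := Lagrange.nodal univ t with hf
  have hdeg : f.natDegree = n := by simp [hf, Lagrange.natDegree_nodal]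
  have : CharP K 2 := (CharP.charP_iff_prime_eq_zero Nat.prime_two).2 (by exact_mod_cast h2)
  have h3 : ∀ b, f.derivative.eval (t b) * wt t b = 1 := by
    intro b
    have := wt_ne_zero ht b
    rw [wt, Lagrange.nodalWeight_eq_eval_derivative_nodal (mem_univ b)] at this ⊢
    exact mul_inv_cancel₀ (fun h => this (by rw [h, inv_zero]))
  have hder : ∀ x, f.derivative.eval x = ∑ j ∈ range (n + 1), f.coeff (2 * j + 1) * x ^ (2 * j) := by
    intro x
    have hd : f.derivative.natDegree < 2 * (n + 1) := by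
      have := natDegree_derivative_le f
      omega
    rw [eval_eq_sum_range' hd, sum_range_even_odd]
    have : ∑ i ∈ range (n + 1), (derivative f).coeff (2 * i + 1) * x ^ (2 * i + 1) = 0 := by
      refine Finset.sum_eq_zero fun i _ => ?_
      rw [coeff_derivative]
      push_cast
      linear_combination (f.coeff (2 * i + 1 + 1) * (i + 1) * x ^ (2 * i + 1)) * h2
    rw [this, add_zero]
    refine Finset.sum_congr rfl fun i _ => ?_
    rw [coeff_derivative]
    push_cast
    linear_combination (f.coeff (2 * i + 1) * i * x ^ (2 * i)) * h2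
  have hev : ∀ b, t b * f.derivative.eval (t b)
      = ∑ i ∈ range (n + 1), f.coeff (2 * i) * t b ^ (2 * i) := by
    intro b
    have h0 : f.eval (t b) = 0 := Lagrange.eval_nodal_at_node (mem_univ b)
    rw [eval_eq_sum_range' (show f.natDegree < 2 * (n + 1) by omega), sum_range_even_odd] at h0
    have : t b * f.derivative.eval (t b)
        = ∑ i ∈ range (n + 1), f.coeff (2 * i + 1) * t b ^ (2 * i + 1) := by
      rw [hder, Finset.mul_sum]
      exact Finset.sum_congr rfl fun i _ => by ring
    rw [this]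
    linear_combination h0 - (∑ i ∈ range (n + 1), f.coeff (2 * i) * t b ^ (2 * i)) * h2
  refine ind2 ht h2 hD (n + 1)
    (fun i j => ∑ b, ∑ b', a b b' * wt t b * wt t b' * t b ^ i * t b' ^ j) ?_ i (by omega) hi j
    (by omega) hj
  rw [← h]
  simp only [CharTwo.sum_sq, Finset.mul_sum]
  have e : ∀ b b', t b * wt t b * wt t b' * a b b' ^ 2 = ∑ i ∈ range (n + 1), ∑ j ∈ range (n + 1),
      f.coeff (2 * i) * f.coeff (2 * j + 1) *
        (a b b' * wt t b * wt t b' * t b ^ i * t b' ^ j) ^ 2 := by
    intro b b'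
    calc _ = (t b * f.derivative.eval (t b)) * f.derivative.eval (t b')
            * (a b b' * wt t b * wt t b') ^ 2 := by
          have h4 := h3 b
          have h5 := h3 b'
          linear_combination
            (-(t b * wt t b * wt t b' * a b b' ^ 2)) * (f.derivative.eval (t b') * wt t b') * h4
              - (t b * wt t b * wt t b' * a b b' ^ 2) * h5
      _ = _ := by
          rw [hev, hder (t b'), Finset.sum_mul_sum, Finset.sum_mul]
          refine Finset.sum_congr rfl fun i _ => ?_
          rw [Finset.sum_mul]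
          refine Finset.sum_congr rfl fun j _ => ?_
          ring
  simp only [e]
  calc _ = ∑ i ∈ range (n + 1), ∑ b, ∑ j ∈ range (n + 1), ∑ b', f.coeff (2 * i) *
        f.coeff (2 * j + 1) * (a b b' * wt t b * wt t b' * t b ^ i * t b' ^ j) ^ 2 :=
        Finset.sum_congr rfl fun i _ => Finset.sum_comm
    _ = ∑ b, ∑ i ∈ range (n + 1), ∑ j ∈ range (n + 1), ∑ b', f.coeff (2 * i) *
        f.coeff (2 * j + 1) * (a b b' * wt t b * wt t b' * t b ^ i * t b' ^ j) ^ 2 :=
        Finset.sum_comm
    _ = ∑ b, ∑ i ∈ range (n + 1), ∑ b', ∑ j ∈ range (n + 1), f.coeff (2 * i) *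
        f.coeff (2 * j + 1) * (a b b' * wt t b * wt t b' * t b ^ i * t b' ^ j) ^ 2 :=
        Finset.sum_congr rfl fun b _ => Finset.sum_congr rfl fun i _ => Finset.sum_comm
    _ = _ := Finset.sum_congr rfl fun b _ => Finset.sum_comm

end

/-- the generic field -/
abbrev GenF (σ : Type) : Type := FractionRing (MvPolynomial σ (ZMod 2))

theorem exists_der (σ : Type) (v : σ → GenF σ) : ∃ D : GenF σ →+ GenF σ, IsDer D ∧
    ∀ b, D (algebraMap (MvPolynomial σ (ZMod 2)) (GenF σ) (MvPolynomial.X b)) = v b := by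
  let R := MvPolynomial σ (ZMod 2)
  let φ : R →ₐ[ZMod 2] TrivSqZeroExt (GenF σ) (GenF σ) := MvPolynomial.aeval fun b =>
    TrivSqZeroExt.inl (algebraMap R (GenF σ) (MvPolynomial.X b)) + TrivSqZeroExt.inr (v b)
  have h1 : ∀ r, (φ r).fst = algebraMap R (GenF σ) r := by
    intro r
    have : (TrivSqZeroExt.fstHom (ZMod 2) (GenF σ) (GenF σ)).comp φ
        = IsScalarTower.toAlgHom (ZMod 2) R (GenF σ) := by
      ext b
      simp only [φ, AlgHom.comp_apply, MvPolynomial.aeval_X, map_add]
      simp
      rfl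
    exact DFunLike.congr_fun this r
  have hu : ∀ y : nonZeroDivisors R, IsUnit (φ.toRingHom y) := by
    intro y
    rw [TrivSqZeroExt.isUnit_iff_isUnit_fst]
    change IsUnit (φ y).fst
    rw [h1]
    exact IsLocalization.map_units (GenF σ) y
  let Φ : GenF σ →+* TrivSqZeroExt (GenF σ) (GenF σ) := IsLocalization.lift hu
  have h2 : ∀ r, Φ (algebraMap R (GenF σ) r) = φ r := fun r => IsLocalization.lift_eq hu r
  have h3 : ∀ x, (Φ x).fst = x := by
    intro x
    have : ((TrivSqZeroExt.fstHom (ZMod 2) (GenF σ) (GenF σ)).toRingHom).comp Φ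
        = RingHom.id _ := by
      apply IsLocalization.ringHom_ext (nonZeroDivisors R)
      refine RingHom.ext fun r => ?_
      change (Φ (algebraMap R (GenF σ) r)).fst = algebraMap R (GenF σ) r
      rw [h2, h1]
    exact DFunLike.congr_fun this x
  refine ⟨⟨⟨fun x => (Φ x).snd, by simp⟩, fun x y => by simp⟩, ⟨fun x y => ?_⟩, fun b => ?_⟩
  · change (Φ (x * y)).snd = x * (Φ y).snd + (Φ x).snd * y
    rw [map_mul, TrivSqZeroExt.snd_mul, h3, h3]
    simp
  · change (Φ (algebraMap R (GenF σ) (MvPolynomial.X b))).snd = v b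
    rw [h2]
    have : φ (MvPolynomial.X b) = TrivSqZeroExt.inl (algebraMap R (GenF σ) (MvPolynomial.X b))
      + TrivSqZeroExt.inr (v b) := MvPolynomial.aeval_X _ _
    rw [this, TrivSqZeroExt.snd_add, TrivSqZeroExt.snd_inl, TrivSqZeroExt.snd_inr, zero_add]

theorem genF_two (σ : Type) : (2 : GenF σ) = 0 := by
  have : (2 : GenF σ) = algebraMap (ZMod 2) (GenF σ) 2 := by simp [map_ofNat]
  rw [this, show (2 : ZMod 2) = 0 from rfl, map_zero]

theorem genF_inj (σ : Type) : Function.Injective fun b : σ =>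
    algebraMap (MvPolynomial σ (ZMod 2)) (GenF σ) (MvPolynomial.X b) := fun _ _ h =>
  MvPolynomial.X_injective (IsFractionRing.injective (MvPolynomial σ (ZMod 2)) (GenF σ) h)

end Vale.Agent.P040
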