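import Vale.Agent.P040.Biv

namespace Vale.Agent.P040

open Polynomial Finset Module

variable {K : Type} [Field K]

theorem map_toPoly (p q : ℕ) (v : Fin p × Fin q → K) (x : K)
    (h : ∀ j, ∑ i : Fin p, x ^ (i : ℕ) * v (i, j) = 0) : (toPoly p q v).map (evalRingHom x) = 0 := by
  rw [toPoly_apply, Polynomial.map_sum, Fintype.sum_prod_type_right]
  refine Finset.sum_eq_zero fun j _ => ?_
  simp only [map_monomial, coe_evalRingHom, eval_monomial]
  rw [← map_sum, show ∑ i : Fin p, v (i, j) * x ^ (i : ℕ) = 0 from by
    rw [← h j]; exact Finset.sum_congr rfl fun _ _ => mul_comm _ _, map_zero]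

theorem eval_toPoly (p q : ℕ) (v : Fin p × Fin q → K) (y : K)
    (h : ∀ i, ∑ j : Fin q, y ^ (j : ℕ) * v (i, j) = 0) : (toPoly p q v).eval (C y) = 0 := by
  rw [toPoly_apply, eval_finsetSum, Fintype.sum_prod_type]
  refine Finset.sum_eq_zero fun i _ => ?_
  simp only [eval_monomial, ← C_pow, monomial_mul_C]
  rw [← map_sum, show ∑ j : Fin q, v (i, j) * y ^ (j : ℕ) = 0 from by
    rw [← h i]; exact Finset.sum_congr rfl fun _ _ => mul_comm _ _, map_zero]

section

variable {m P Q : ℕ} {s : Fin m → K} (hs : Function.Injective s)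
  {V V' : Type} [AddCommGroup V] [Module K V] [AddCommGroup V'] [Module K V']
  (A A' : Fin m → V →ₗ[K] V' →ₗ[K] K)

include hs in
theorem h0_vanish (hPQ : P + Q ≤ m + 1)
    (hsurj : ∀ a (α : Dual K V), ∃ γ : V', ∀ v, A' a v γ - A a v γ = α v)
    (v : Fin P × Fin Q → V) (w : Fin P × Fin Q → Dual K V')
    (h1 : ∀ a j, ∑ i : Fin P, s a ^ (i : ℕ) • (w (i, j) - A a (v (i, j))) = 0)
    (h2 : ∀ a i, ∑ j : Fin Q, s a ^ (j : ℕ) • (w (i, j) - A' a (v (i, j))) = 0) :
    v = 0 ∧ w = 0 := by
  have key := vanish hs P Q hPQ
    {f | ∃ (α : Dual K V) (β : V'), f = toPoly P Q fun ij => α (v ij) + w ij β}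
    (by rintro f ⟨α, β, rfl⟩; exact bd_toPoly _ _ _) (by
      rintro f ⟨α, β, rfl⟩ a
      obtain ⟨γ, hγ⟩ := hsurj a (α + (A' a).flip β)
      refine ⟨_, ⟨-(A a).flip γ, γ, rfl⟩, _, ⟨-(A' a).flip (β - γ), β - γ, rfl⟩, ?_, ?_, ?_⟩
      · rw [← map_add]
        congr 1
        funext ij
        have := hγ (v ij)
        simp only [LinearMap.add_apply, LinearMap.flip_apply] at this
        simp only [Pi.add_apply, LinearMap.neg_apply, LinearMap.flip_apply, map_sub,
          LinearMap.sub_apply]
        linear_combination -this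
      · refine map_toPoly _ _ _ _ fun j => ?_
        have := DFunLike.congr_fun (h1 a j) γ
        simp only [LinearMap.sum_apply, LinearMap.smul_apply, LinearMap.sub_apply, smul_eq_mul,
          LinearMap.zero_apply] at this
        rw [← this]
        refine Finset.sum_congr rfl fun i _ => ?_
        simp only [LinearMap.neg_apply, LinearMap.flip_apply]
        ring
      · refine eval_toPoly _ _ _ _ fun i => ?_
        have := DFunLike.congr_fun (h2 a i) (β - γ)
        simp only [LinearMap.sum_apply, LinearMap.smul_apply, LinearMap.sub_apply, smul_eq_mul,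
          LinearMap.zero_apply] at this
        rw [← this]
        refine Finset.sum_congr rfl fun j _ => ?_
        simp only [LinearMap.neg_apply, LinearMap.flip_apply]
        ring)
  constructor
  · funext ij
    rw [Pi.zero_apply, ← Module.forall_dual_apply_eq_zero_iff K]
    intro α
    have := congrFun (toPoly_eq_zero (key _ ⟨α, 0, rfl⟩)) ij
    simpa using this
  · funext ij
    ext β
    have := congrFun (toPoly_eq_zero (key _ ⟨0, β, rfl⟩)) ij
    simpa using this

include hs in
theorem h2_vanish (hPQ : (m - P) + (m - Q) ≤ m + 1)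
    (hsurj : ∀ a (w : Dual K V'), ∃ v : V, A a v - A' a v = w)
    (φ : Fin m → Fin m → V') (hφ : ∀ a a' v, A a v (φ a a') = A' a' v (φ a a'))
    (h1 : ∀ a, ∀ j < Q, ∑ a', s a' ^ j • φ a a' = 0)
    (h2 : ∀ a', ∀ i < P, ∑ a, s a ^ i • φ a a' = 0) : φ = 0 := by
  have hint : ∀ (v : V) (w : Dual K V'), ∃ f : K[X][X], Bd (m - P) (m - Q) f ∧
      ∀ a a', wt s a * wt s a' * f.evalEval (s a) (s a') = w (φ a a') - A a v (φ a a') := by
    intro v w
    refine exists_interp hs _ (fun a j hj => ?_) (fun a' i hi => ?_)
    · have := congrArg (w - A a v) (h1 a j hj)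
      simpa [map_sum] using this
    · have := congrArg (w - A' a' v) (h2 a' i hi)
      simpa [map_sum, hφ] using this
  have key := vanish hs (m - P) (m - Q) hPQ
    {f | Bd (m - P) (m - Q) f ∧ ∃ (v : V) (w : Dual K V'),
      ∀ a a', wt s a * wt s a' * f.evalEval (s a) (s a') = w (φ a a') - A a v (φ a a')}
    (fun f hf => hf.1) (by
      rintro f ⟨hf, v, w, hvw⟩ a
      obtain ⟨v1, hv1⟩ := hsurj a (w - A' a v)
      obtain ⟨g, hg, hg'⟩ := hint v1 (A a v1)
      have hfg : ∀ c c', wt s c * wt s c' * (f - g).evalEval (s c) (s c')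
          = (w - A a v1) (φ c c') - A c (v - v1) (φ c c') := by
        intro c c'
        rw [evalEval_sub, mul_sub, hvw, hg']
        simp only [LinearMap.sub_apply, map_sub]
        ring
      refine ⟨g, ⟨hg, v1, A a v1, hg'⟩, f - g, ⟨hf.sub hg, v - v1, w - A a v1, hfg⟩, by ring,
        ?_, ?_⟩
      · refine hg.map_eq_zero hs (by omega) _ fun a' => ?_
        have := hg' a a'
        rw [sub_self] at this
        exact (mul_eq_zero.1 this).resolve_left
          (mul_ne_zero (wt_ne_zero hs _) (wt_ne_zero hs _))
      · refine (hf.sub hg).eval_eq_zero hs (by omega) _ fun c => ?_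
        have := hfg c a
        rw [hφ c a] at this
        have e := DFunLike.congr_fun hv1 (φ c a)
        simp only [LinearMap.sub_apply, map_sub] at this e
        have : wt s c * wt s a * (f - g).evalEval (s c) (s a) = 0 := by
          linear_combination this - e
        exact (mul_eq_zero.1 this).resolve_left
          (mul_ne_zero (wt_ne_zero hs _) (wt_ne_zero hs _)))
  funext a a'
  rw [Pi.zero_apply, Pi.zero_apply, ← Module.forall_dual_apply_eq_zero_iff K]
  intro w
  obtain ⟨f, hf, hf'⟩ := hint 0 w
  have := hf' a a'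
  rw [key f ⟨hf, 0, w, hf'⟩] at this
  simpa using this.symm

include hs in
theorem lemL [FiniteDimensional K V] [FiniteDimensional K V'] (hPQ : P + Q = m + 1)
    (hP : 1 ≤ P) (hQ : 1 ≤ Q) (D : ℕ) (hV : finrank K V = D) (hV' : finrank K V' = D)
    (hL : ∀ a v, A a v = A' a v → v = 0)
    (X : Fin m × Fin m → Submodule K V')
    (hX : ∀ aa, ∀ φ ∈ X aa, ∀ v, A aa.1 v φ = A' aa.2 v φ) :
    ∑ aa, finrank K (X aa) + P * Q * (2 * D) ≤ m * (m + 1) * D := by
  classical
  have hs1 : ∀ a (w : Dual K V'), ∃ v : V, A a v - A' a v = w := by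
    intro a
    have hinj : Function.Injective (A a - A' a : V →ₗ[K] Dual K V') := by
      rw [injective_iff_map_eq_zero]
      intro v hv
      exact hL a v (sub_eq_zero.1 hv)
    exact (LinearMap.injective_iff_surjective_of_finrank_eq_finrank
      (by rw [Subspace.dual_finrank_eq, hV, hV'])).1 hinj
  have hs2 : ∀ a (α : Dual K V), ∃ γ : V', ∀ v, A' a v γ - A a v γ = α v := by
    intro a α
    have hinj : Function.Injective ((A' a - A a).flip : V' →ₗ[K] Dual K V) := by
      rw [injective_iff_map_eq_zero]
      intro γ hγ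
      rw [← Module.forall_dual_apply_eq_zero_iff K]
      intro w
      obtain ⟨v, rfl⟩ := hs1 a w
      have := DFunLike.congr_fun hγ v
      simp only [LinearMap.flip_apply, LinearMap.sub_apply, LinearMap.zero_apply] at this ⊢
      linear_combination -this
    obtain ⟨γ, hγ⟩ := (LinearMap.injective_iff_surjective_of_finrank_eq_finrank
      (by rw [Subspace.dual_finrank_eq, hV, hV'])).1 hinj α
    exact ⟨γ, fun v => DFunLike.congr_fun hγ v⟩
  let d0 : ((Fin P × Fin Q → V) × (Fin P × Fin Q → Dual K V')) →ₗ[K]
      ((Fin m × Fin Q → Dual K V') × (Fin m × Fin P → Dual K V')) :=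
    { toFun := fun F =>
        (fun aj => ∑ i : Fin P, s aj.1 ^ (i : ℕ) • (F.2 (i, aj.2) - A aj.1 (F.1 (i, aj.2))),
         fun ai => ∑ j : Fin Q, s ai.1 ^ (j : ℕ) • (F.2 (ai.2, j) - A' ai.1 (F.1 (ai.2, j))))
      map_add' := fun F G => by
        refine Prod.ext (funext fun aj => ?_) (funext fun ai => ?_) <;>
        · simp only [Prod.fst_add, Prod.snd_add, Pi.add_apply, map_add, ← Finset.sum_add_distrib]
          exact Finset.sum_congr rfl fun _ _ => by module
      map_smul' := fun c F => by
        refine Prod.ext (funext fun aj => ?_) (funext fun ai => ?_) <;>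
        · simp only [Prod.smul_fst, Prod.smul_snd, Pi.smul_apply, map_smul, RingHom.id_apply,
            Finset.smul_sum]
          exact Finset.sum_congr rfl fun _ _ => by module }
  have hd0 : Function.Injective d0 := by
    rw [injective_iff_map_eq_zero]
    intro F hF
    have := h0_vanish hs A A' hPQ.le hs2 F.1 F.2
      (fun a j => congrFun (congrArg Prod.fst hF) (a, j))
      (fun a i => congrFun (congrArg Prod.snd hF) (a, i))
    exact Prod.ext this.1 this.2
  let g : (∀ aa : Fin m × Fin m, X aa) →ₗ[K]
      Dual K ((Fin m × Fin Q → Dual K V') × (Fin m × Fin P → Dual K V')) :=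
    LinearMap.mk₂ K (fun φ G => ∑ aa : Fin m × Fin m,
      (∑ j : Fin Q, s aa.2 ^ (j : ℕ) * G.1 (aa.1, j) (φ aa)
        - ∑ i : Fin P, s aa.1 ^ (i : ℕ) * G.2 (aa.2, i) (φ aa)))
      (fun φ ψ G => by
        simp only [Pi.add_apply, Submodule.coe_add, map_add, mul_add, Finset.sum_add_distrib,
          Finset.sum_sub_distrib]
        ring)
      (fun c φ G => by
        simp only [Pi.smul_apply, Submodule.coe_smul, map_smul, smul_eq_mul, Finset.mul_sum,
          mul_sub, mul_left_comm c])
      (fun φ G G' => by
        simp only [Prod.fst_add, Prod.snd_add, Pi.add_apply, LinearMap.add_apply, mul_add,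
          Finset.sum_add_distrib, Finset.sum_sub_distrib]
        ring)
      (fun c φ G => by
        simp only [Prod.smul_fst, Prod.smul_snd, Pi.smul_apply, LinearMap.smul_apply,
          smul_eq_mul, Finset.mul_sum, mul_sub, mul_left_comm c])
  have g_apply : ∀ φ G, g φ G = ∑ aa : Fin m × Fin m,
      (∑ j : Fin Q, s aa.2 ^ (j : ℕ) * G.1 (aa.1, j) (φ aa)
        - ∑ i : Fin P, s aa.1 ^ (i : ℕ) * G.2 (aa.2, i) (φ aa)) := fun _ _ => rfl
  have hg : Function.Injective g := by
    rw [injective_iff_map_eq_zero]
    intro φ hφ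
    have := h2_vanish (P := P) (Q := Q) hs A A' (by omega) hs1 (fun a a' => (φ (a, a') : V'))
      (fun a a' v => hX (a, a') _ (φ (a, a')).2 v) (fun a j hj => by
        rw [← Module.forall_dual_apply_eq_zero_iff K]
        intro w
        have := DFunLike.congr_fun hφ (Pi.single (a, ⟨j, hj⟩) w, 0)
        rw [g_apply, Fintype.sum_prod_type, Finset.sum_eq_single a] at this
        · simp only [Pi.zero_apply, LinearMap.zero_apply, mul_zero, Finset.sum_const_zero,
            sub_zero] at this
          rw [map_sum, ← this]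
          refine Finset.sum_congr rfl fun a' _ => ?_
          rw [Finset.sum_eq_single ⟨j, hj⟩]
          · simp
          · intro j' _ hj'
            rw [Pi.single_eq_of_ne (by simpa using hj')]
            simp
          · simp
        · intro c _ hc
          refine Finset.sum_eq_zero fun a' _ => ?_
          simp only [Pi.zero_apply, LinearMap.zero_apply, mul_zero, Finset.sum_const_zero,
            sub_zero]
          refine Finset.sum_eq_zero fun j' _ => ?_
          rw [Pi.single_eq_of_ne (by simp [hc])]
          simp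
        · simp) (fun a' i hi => by
        rw [← Module.forall_dual_apply_eq_zero_iff K]
        intro w
        have := DFunLike.congr_fun hφ (0, Pi.single (a', ⟨i, hi⟩) w)
        rw [g_apply, Fintype.sum_prod_type_right, Finset.sum_eq_single a'] at this
        · simp only [Pi.zero_apply, LinearMap.zero_apply, mul_zero, Finset.sum_const_zero,
            zero_sub, Finset.sum_neg_distrib, neg_eq_zero] at this
          rw [map_sum, ← this]
          refine Finset.sum_congr rfl fun a _ => ?_
          rw [Finset.sum_eq_single ⟨i, hi⟩]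
          · simp
          · intro j' _ hj'
            rw [Pi.single_eq_of_ne (by simpa using hj')]
            simp
          · simp
        · intro c _ hc
          refine Finset.sum_eq_zero fun a _ => ?_
          simp only [Pi.zero_apply, LinearMap.zero_apply, mul_zero, Finset.sum_const_zero,
            zero_sub, neg_eq_zero]
          refine Finset.sum_eq_zero fun j' _ => ?_
          rw [Pi.single_eq_of_ne (by simp [hc])]
          simp
        · simp)
    funext aa
    exact Subtype.ext (congrFun (congrFun this aa.1) aa.2)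
  have hle : LinearMap.range g ≤ (LinearMap.range d0).dualAnnihilator := by
    rintro _ ⟨φ, rfl⟩
    rw [Submodule.mem_dualAnnihilator]
    rintro _ ⟨F, rfl⟩
    rw [g_apply]
    refine Finset.sum_eq_zero fun aa _ => ?_
    simp only [d0, LinearMap.coe_mk, AddHom.coe_mk, LinearMap.sum_apply, LinearMap.smul_apply,
      LinearMap.sub_apply, smul_eq_mul, Finset.mul_sum, hX aa _ (φ aa).2]
    rw [Finset.sum_comm, sub_eq_zero]
    exact Finset.sum_congr rfl fun _ _ => Finset.sum_congr rfl fun _ _ => by ring
  have e1 := Submodule.finrank_mono hle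
  have e2 := Subspace.finrank_add_finrank_dualAnnihilator_eq (LinearMap.range d0)
  rw [LinearMap.finrank_range_of_inj hg, Module.finrank_pi_fintype] at e1
  rw [LinearMap.finrank_range_of_inj hd0] at e2
  simp only [Module.finrank_prod, Module.finrank_pi_fintype, Subspace.dual_finrank_eq, hV, hV',
    Finset.sum_const, card_univ, Fintype.card_prod, Fintype.card_fin, smul_eq_mul] at e2
  have e3 : m * (m + 1) * D = m * Q * D + m * P * D := by rw [← hPQ]; ring
  have e4 : P * Q * (2 * D) = P * Q * D + P * Q * D := by ring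
  omega

end

end Vale.Agent.P040
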