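import Vale.Agent.P040.Nondeg
import Vale.Agent.P040.Generic
import Vale.Agent.P040.LemL

namespace Vale.Agent.P040

open Polynomial Finset Module

theorem lam_add {K : Type} [Field K] {n : ℕ} (t : Fin n → K) (W W' : Fin n → Fin n → K)
    (f : K[X][X]) : lam t (fun b b' => W b b' + W' b b') f = lam t W f + lam t W' f := by
  simp only [lam_apply, add_mul, Finset.sum_add_distrib]

theorem core_field {K : Type} [Field K] {m n A B P Q : ℕ} {t : Fin n → K}
    (ht : Function.Injective t) {s : Fin m → K} (hs : Function.Injective s) (h2 : (2 : K) = 0)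
    (hD : ∀ v : Fin n → K, ∃ D : K →+ K, IsDer D ∧ ∀ b, D (t b) = v b)
    (hAB : (A + 1) + (B + 1) + 1 = n) (hBA : B ≤ A) (hAB' : A ≤ B + 1)
    (hPQ : P + Q + 1 = m)
    (Y Z : Fin m → Fin n → Fin n → K) (x x' : Fin m → Fin m → Fin n → K)
    (hT0 : ∀ a b b', (Y a b b' + Z a b b') ^ 2 = Y a b b' + Z a b b')
    (hT : ∀ a b b', b ≠ b' → (Y a b b' + Z a b b') + (Y a b' b + Z a b' b) = 1)
    (bad : Fin m × Fin m → Finset (Fin n × Fin n))
    (hbad : ∀ a a' b b', a ≠ a' → b ≠ b' → (b, b') ∉ bad (a, a') →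
      Y a b b' + Z a' b b' + x a a' b + x' a a' b' = 0) :
    2 * (P * Q * ((A + 1) * (B + 1))) ≤ ∑ aa ∈ (univ : Finset (Fin m)).offDiag, (bad aa).card := by
  classical
  let form : (Fin n → Fin n → K) →
      (Fin (B + 1) × Fin (A + 1) → K) →ₗ[K] (Fin (A + 1) × Fin (B + 1) → K) →ₗ[K] K :=
    fun W => ((LinearMap.mul K K[X][X]).compl₁₂ (toPoly _ _) (toPoly _ _)).compr₂ (lam t W)
  have form_apply : ∀ W v v', form W v v' = lam t W (toPoly _ _ v * toPoly _ _ v') :=
    fun _ _ _ => rfl
  let ev : (aa : Fin m × Fin m) → (Fin (A + 1) × Fin (B + 1) → K) →ₗ[K] (bad aa → K) :=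
    fun aa =>
      { toFun := fun v c => (toPoly _ _ v).evalEval (t c.1.1) (t c.1.2)
        map_add' := fun v w => by funext c; simp
        map_smul' := fun c v => by funext c; simp }
  let Xs : Fin m × Fin m → Submodule K (Fin (A + 1) × Fin (B + 1) → K) :=
    fun aa => if aa.1 = aa.2 then ⊥ else LinearMap.ker (ev aa)
  have main := lemL (P := P + 1) (Q := Q + 1) hs (fun a => form (Y a)) (fun a => form (Z a))
    (by omega) (by omega) (by omega) ((A + 1) * (B + 1)) (by simp [mul_comm]) (by simp)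
    (fun a v hv => by
      apply toPoly_eq_zero
      refine nondeg (A := A + 1) (B := B + 1) ht h2 hAB (by omega) (by omega) (ind1 h2 hD)
        (fun c hc i hi j hj => rel_lemma ht h2 hD c hc i (by omega) j (by omega))
        (fun b b' => Y a b b' + Z a b b') (hT0 a) (hT a) (B + 1) 0 (A + 1) rfl rfl _
        (bd_toPoly _ _ _) fun G hG => ?_
      have := DFunLike.congr_fun hv (fun ij => (G.coeff ij.2).coeff ij.1)
      rw [form_apply, form_apply, ← Bd.eq_toPoly hG] at this
      rw [lam_add, this]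
      linear_combination (lam t (Z a) (toPoly (B + 1) (A + 1) v * G)) * h2)
    Xs (by
      rintro ⟨a, a'⟩ φ hφ v
      by_cases haa : a = a'
      · simp only [Xs, haa, if_true, Submodule.mem_bot] at hφ
        simp [hφ]
      simp only [Xs, haa, if_false, LinearMap.mem_ker] at hφ
      have hb : Bd (B + (A + 1)) (A + (B + 1)) (toPoly _ _ v * toPoly _ _ φ) :=
        (bd_toPoly _ _ v).mul (bd_toPoly _ _ φ)
      have e1 := lam_row ht (x a a') hb (by omega)
      have e2 := lam_col ht (x' a a') hb (by omega)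
      have e3 : lam t (fun b b' => Y a b b' + Z a' b b' + x a a' b + x' a a' b')
          (toPoly _ _ v * toPoly _ _ φ) = 0 := by
        rw [lam_apply]
        refine Finset.sum_eq_zero fun b _ => Finset.sum_eq_zero fun b' _ => ?_
        by_cases hbb : b = b'
        · simp [hbb]
        by_cases hm : (b, b') ∈ bad (a, a')
        · have : (toPoly _ _ φ).evalEval (t b) (t b') = 0 := congrFun hφ ⟨(b, b'), hm⟩
          rw [evalEval_mul, this]
          simp
        · rw [hbad a a' b b' haa hbb hm]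
          simp
      rw [lam_add t (fun b b' => Y a b b' + Z a' b b' + x a a' b) (fun _ b' => x' a a' b'),
        lam_add t (fun b b' => Y a b b' + Z a' b b') (fun b _ => x a a' b), lam_add, e1, e2] at e3
      change form (Y a) v φ = form (Z a') v φ
      rw [form_apply, form_apply]
      linear_combination e3 - (lam t (Z a') (toPoly (B + 1) (A + 1) v * toPoly _ _ φ)) * h2)
  set D := (A + 1) * (B + 1) with hDdef
  have hk : ∀ aa ∈ (univ : Finset (Fin m)).offDiag, D ≤ finrank K (Xs aa) + (bad aa).card := by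
    intro aa haa
    have hne : aa.1 ≠ aa.2 := (mem_offDiag.1 haa).2.2
    have e1 := LinearMap.finrank_range_add_finrank_ker (ev aa)
    have e2 : finrank K (LinearMap.range (ev aa)) ≤ (bad aa).card := by
      have := Submodule.finrank_le (LinearMap.range (ev aa))
      simpa using this
    have e3 : Xs aa = LinearMap.ker (ev aa) := if_neg hne
    rw [e3]
    have e4 : finrank K (Fin (A + 1) × Fin (B + 1) → K) = D := by simp [hDdef]
    omega
  have hs1 := Finset.sum_le_sum hk
  rw [Finset.sum_const, Finset.sum_add_distrib, offDiag_card, card_univ, Fintype.card_fin,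
    smul_eq_mul] at hs1
  have hs2 : ∑ aa ∈ (univ : Finset (Fin m)).offDiag, finrank K (Xs aa)
      ≤ ∑ aa, finrank K (Xs aa) := Finset.sum_le_sum_of_subset (subset_univ _)
  subst hPQ
  have e5 : (P + Q + 1) * (P + Q + 1) - (P + Q + 1) = (P + Q + 1) * (P + Q) := by
    rw [Nat.mul_succ, Nat.add_sub_cancel]
  rw [e5] at hs1
  have e6 : (P + Q + 1) * (P + Q) * D + (P + 1) * (Q + 1) * (2 * D)
      = 2 * (P * Q * D) + (P + Q + 1) * (P + Q + 1 + 1) * D := by ring
  omega

theorem core (m n : ℕ) (Y Z : Fin m → Fin n → Fin n → ZMod 2)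
    (x x' : Fin m → Fin m → Fin n → ZMod 2)
    (hT : ∀ a b b', b ≠ b' → (Y a b b' + Z a b b') + (Y a b' b + Z a b' b) = 1)
    (bad : Fin m × Fin m → Finset (Fin n × Fin n))
    (hbad : ∀ a a' b b', a ≠ a' → b ≠ b' → (b, b') ∉ bad (a, a') →
      Y a b b' + Z a' b b' + x a a' b + x' a a' b' = 0) :
    2 * ((m / 2 * ((m - 1) / 2)) * (n / 2 * ((n - 1) / 2)))
      ≤ ∑ aa ∈ (univ : Finset (Fin m)).offDiag, (bad aa).card := by
  rcases Nat.eq_zero_or_pos m with rfl | hm
  · simp
  by_cases hn : n ≤ 2
  · rw [show (n - 1) / 2 = 0 by omega]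
    simp
  let σ := Fin n ⊕ Fin m
  let ι : ZMod 2 →+* GenF σ := algebraMap _ _
  have hinj := genF_inj σ
  have := core_field (K := GenF σ) (m := m) (n := n) (A := n / 2 - 1) (B := (n - 1) / 2 - 1)
    (P := m / 2) (Q := (m - 1) / 2) (hinj.comp Sum.inl_injective) (hinj.comp Sum.inr_injective)
    (genF_two σ) (fun v => by
      obtain ⟨D, hD, hD'⟩ := exists_der σ (Sum.elim v 0)
      exact ⟨D, hD, fun b => hD' (Sum.inl b)⟩) (by omega) (by omega) (by omega) (by omega)
    (fun a b b' => ι (Y a b b')) (fun a b b' => ι (Z a b b')) (fun a a' b => ι (x a a' b))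
    (fun a a' b => ι (x' a a' b))
    (fun a b b' => by
      rw [← map_add, ← map_pow]
      congr 1
      generalize Y a b b' + Z a b b' = z
      revert z
      decide)
    (fun a b b' h => by simp only [← map_add, hT a b b' h, map_one]) bad
    (fun a a' b b' h h' h'' => by simp only [← map_add, hbad a a' b b' h h' h'', map_zero])
  rwa [show n / 2 - 1 + 1 = n / 2 by omega, show (n - 1) / 2 - 1 + 1 = (n - 1) / 2 by omega]
    at this

end Vale.Agent.P040
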