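import Mathlib

namespace Vale.Agent.P040

/-- A system of points and simple arcs in the plane representing a graph: vertices at distinct
points, each edge a simple continuous arc between its endpoints whose interior avoids all
vertices. -/
structure Drawing {V : Type} (G : SimpleGraph V) where
  pos : V → ℝ × ℝ
  pos_injective : Function.Injective pos
  arc : G.edgeSet → unitInterval → ℝ × ℝ
  arc_continuous : ∀ e, Continuous (arc e)
  arc_injective : ∀ e, Function.Injective (arc e)
  arc_ends : ∀ e : G.edgeSet, ∃ u v, e.1 = s(u, v) ∧ arc e 0 = pos u ∧ arc e 1 = pos v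
  arc_avoids : ∀ e t w, t ≠ 0 → t ≠ 1 → arc e t ≠ pos w

variable {V : Type} {G : SimpleGraph V}

/-- The interior of the arc of an edge. -/
def Drawing.edgeInterior (D : Drawing G) (e : G.edgeSet) : Set (ℝ × ℝ) :=
  {z | ∃ t, t ≠ 0 ∧ t ≠ 1 ∧ D.arc e t = z}

/-- The points where the interiors of two different edges meet. -/
def Drawing.crossingPoints (D : Drawing G) : Set (ℝ × ℝ) :=
  {z | ∃ e f, e ≠ f ∧ z ∈ D.edgeInterior e ∧ z ∈ D.edgeInterior f}

/-- Edge interiors meet in finitely many points, and no point is on three edge interiors. -/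
def Drawing.FiniteDouble (D : Drawing G) : Prop :=
  D.crossingPoints.Finite ∧ ∀ e f g z, z ∈ D.edgeInterior e → z ∈ D.edgeInterior f →
    z ∈ D.edgeInterior g → e = f ∨ e = g ∨ f = g

/-- `A` and `B` cross properly at `z`: in a chart around `z` they are the two coordinate axes. -/
def ProperCrossing (A B : Set (ℝ × ℝ)) (z : ℝ × ℝ) : Prop :=
  ∃ φ : OpenPartialHomeomorph (ℝ × ℝ) (ℝ × ℝ), z ∈ φ.source ∧ φ z = (0, 0) ∧
    ∀ w ∈ φ.source, (w ∈ A ↔ (φ w).2 = 0) ∧ (w ∈ B ↔ (φ w).1 = 0)

/-- A drawing in the sense of the problem: finitely many meeting points, each a proper crossing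
of exactly two edges. -/
def Drawing.Admissible (D : Drawing G) : Prop :=
  D.FiniteDouble ∧ ∀ e f z, e ≠ f → z ∈ D.edgeInterior e → z ∈ D.edgeInterior f →
    ProperCrossing (D.edgeInterior e) (D.edgeInterior f) z

/-- The set of values `c(D)`, the number of crossing points, over all drawings `D` of `G`. -/
def crossingCounts (G : SimpleGraph V) : Set ℕ :=
  {c | ∃ D : Drawing G, D.Admissible ∧ D.crossingPoints.ncard = c}

/-- `d r = ⌊r/2⌋ ⌊(r-1)/2⌋`. -/
def d (r : ℕ) : ℕ := r / 2 * ((r - 1) / 2)

end Vale.Agent.P040
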