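import Mathlib

namespace Vale.Agent.P040

open Complex unitInterval

/-- path lifting through the exponential -/
theorem exists_log_path (γ : I → ℂ) (hc : Continuous γ) (h0 : ∀ s, γ s ≠ 0) :
    ∃ L : I → ℂ, Continuous L ∧ ∀ s, exp (L s) = γ s := by
  let f : C(I, {z : ℂ // z ≠ 0}) := ⟨fun s => ⟨γ s, h0 s⟩, by fun_prop⟩
  have he : f 0 = (fun z : ℂ ↦ (⟨_, z.exp_ne_zero⟩ : {z : ℂ // z ≠ 0})) (log (γ 0)) := by
    apply Subtype.ext
    simp [f, exp_log (h0 0)]
  refine ⟨isCoveringMap_exp.liftPath f (log (γ 0)) he,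
    (isCoveringMap_exp.liftPath f (log (γ 0)) he).continuous, fun s => ?_⟩
  have := congrFun (isCoveringMap_exp.liftPath_lifts f (log (γ 0)) he) s
  exact congrArg Subtype.val this

theorem exists_log_square (F : I × I → ℂ) (hc : Continuous F) (h0 : ∀ p, F p ≠ 0) :
    ∃ H : I × I → ℂ, Continuous H ∧ ∀ p, exp (H p) = F p := by
  obtain ⟨L, hL, hL'⟩ := exists_log_path (fun t => F (0, t)) (by fun_prop) (fun t => h0 _)
  let f : C(I × I, {z : ℂ // z ≠ 0}) := ⟨fun s => ⟨F s, h0 s⟩, by fun_prop⟩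
  have he : ∀ a, f (0, a) =
      (fun z : ℂ ↦ (⟨_, z.exp_ne_zero⟩ : {z : ℂ // z ≠ 0})) ((⟨L, hL⟩ : C(I, ℂ)) a) := by
    intro a
    apply Subtype.ext
    simp [f, hL']
  refine ⟨isCoveringMap_exp.liftHomotopy f ⟨L, hL⟩ he,
    (isCoveringMap_exp.liftHomotopy f ⟨L, hL⟩ he).continuous, fun s => ?_⟩
  have := congrFun (isCoveringMap_exp.liftHomotopy_lifts f ⟨L, hL⟩ he) s
  exact congrArg Subtype.val this

theorem lift_unique (L M : I → ℂ) (hL : Continuous L) (hM : Continuous M) (c : ℂ)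
    (h : ∀ s, exp (L s) = exp (M s + c)) : L 1 - L 0 = M 1 - M 0 := by
  obtain ⟨k, hk⟩ := exp_eq_exp_iff_exists_int.1 (h 0)
  have := isCoveringMap_exp.eq_of_comp_eq (g₁ := L)
    (g₂ := fun s => M s + c + k * (2 * Real.pi * Complex.I)) hL (by fun_prop) (by
      funext s
      apply Subtype.ext
      simp only [Function.comp]
      rw [exp_add, exp_int_mul_two_pi_mul_I, mul_one, h]) 0 hk
  rw [this]
  ring

/-- total change of the logarithm -/
theorem exists_theta (γ : I → ℂ) (hc : Continuous γ) (v : ℂ) :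
    ∃ θ : ℂ, (∀ s, γ s ≠ v) → (exp θ * (γ 0 - v) = γ 1 - v) ∧
      ∀ (M : I → ℂ) (c : ℂ), Continuous M → (∀ s, exp (M s + c) = γ s - v) → θ = M 1 - M 0 := by
  by_cases h : ∀ s, γ s ≠ v
  · obtain ⟨L, hL, hL'⟩ := exists_log_path (fun s => γ s - v) (by fun_prop)
      (fun s => sub_ne_zero.2 (h s))
    refine ⟨L 1 - L 0, fun _ => ⟨?_, fun M c hM hM' => ?_⟩⟩
    · rw [← hL' 0, ← hL' 1, ← exp_add]
      congr 1
      ring
    · exact lift_unique L M hL hM c (fun s => by rw [hL', hM'])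
  · exact ⟨0, fun h' => absurd h' h⟩

theorem exists_j (u v : ℂ) : ∃ j : ℤ, u ≠ v →
    log (u - v) = log (v - u) + Real.pi * Complex.I + j * (2 * Real.pi * Complex.I) := by
  by_cases h : u = v
  · exact ⟨0, fun h' => absurd h h'⟩
  · have h1 : u - v ≠ 0 := sub_ne_zero.2 h
    have h2 : v - u ≠ 0 := sub_ne_zero.2 (Ne.symm h)
    have : exp (log (u - v)) = exp (log (v - u) + Real.pi * Complex.I) := by
      rw [exp_add, exp_log h1, exp_log h2, exp_pi_mul_I]
      ring
    obtain ⟨k, hk⟩ := exp_eq_exp_iff_exists_int.1 this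
    exact ⟨k, fun _ => hk⟩

theorem exists_k (θ a b v : ℂ) : ∃ k : ℤ, a ≠ v → b ≠ v → exp θ * (a - v) = b - v →
    θ = log (b - v) - log (a - v) + k * (2 * Real.pi * Complex.I) := by
  by_cases h : a ≠ v ∧ b ≠ v ∧ exp θ * (a - v) = b - v
  · obtain ⟨ha, hb, he⟩ := h
    have h1 : a - v ≠ 0 := sub_ne_zero.2 ha
    have h2 : b - v ≠ 0 := sub_ne_zero.2 hb
    have : exp θ = exp (log (b - v) - log (a - v)) := by
      rw [exp_sub, exp_log h1, exp_log h2, ← he]
      field_simp
    obtain ⟨k, hk⟩ := exp_eq_exp_iff_exists_int.1 this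
    exact ⟨k, fun _ _ _ => hk⟩
  · exact ⟨0, fun h1 h2 h3 => absurd ⟨h1, h2, h3⟩ h⟩

theorem int_of_mul_tau (k : ℤ) (h : (k : ℂ) * (2 * Real.pi * Complex.I) = 0) : k = 0 := by
  have h1 : (2 * Real.pi * Complex.I : ℂ) ≠ 0 := two_pi_I_ne_zero
  exact_mod_cast (mul_eq_zero.1 h).resolve_right h1

/-- The topological input: a parity cochain vanishing on disjoint pairs of edges. -/
theorem topo {α β : Type} (A : α → ℂ) (B : β → ℂ) (hA : Function.Injective A)
    (hB : Function.Injective B) (hAB : ∀ a b, A a ≠ B b)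
    (γ : α → β → I → ℂ) (hc : ∀ a b, Continuous (γ a b))
    (h0 : ∀ a b, γ a b 0 = A a) (h1 : ∀ a b, γ a b 1 = B b)
    (hav : ∀ a b s a', a ≠ a' → γ a b s ≠ A a') (hbv : ∀ a b s b', b ≠ b' → γ a b s ≠ B b') :
    ∃ (Y Z : α → β → β → ZMod 2) (x x' : α → α → β → ZMod 2),
      (∀ a b b', b ≠ b' → (Y a b b' + Z a b b') + (Y a b' b + Z a b' b) = 1) ∧
      ∀ a a' b b', a ≠ a' → b ≠ b' → (∀ s t, γ a b s ≠ γ a' b' t) →
        Y a b b' + Z a' b b' + x a a' b + x' a a' b' = 0 := by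
  choose θ hθ using fun a b v => exists_theta (γ a b) (hc a b) v
  choose J hJ using exists_j
  choose k hk using fun a b v => exists_k (θ a b v) (A a) (B b) v
  refine ⟨fun a b b' => (J (B b') (B b) : ZMod 2) + (k a b (B b') : ZMod 2),
    fun a' b b' => (k a' b' (B b) : ZMod 2),
    fun a a' b => (J (B b) (A a') : ZMod 2) + (J (A a') (A a) : ZMod 2) + (k a b (A a') : ZMod 2),
    fun a a' b' => (J (A a) (B b') : ZMod 2) + (k a' b' (A a) : ZMod 2), ?_, ?_⟩
  · intro a b b' hbb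
    have hne : B b ≠ B b' := fun h => hbb (hB h)
    have e1 := hJ _ _ hne
    have e2 := hJ _ _ hne.symm
    have : J (B b) (B b') + J (B b') (B b) + 1 = 0 := by
      apply int_of_mul_tau
      push_cast
      linear_combination -e1 - e2
    have h2 := congrArg (Int.cast : ℤ → ZMod 2) this
    push_cast at h2
    have h3 : (2 : ZMod 2) = 0 := rfl
    linear_combination h2 + ((k a b (B b') : ZMod 2) + (k a b' (B b) : ZMod 2) - 1) * h3
  · intro a a' b b' haa hbb hdis
    obtain ⟨H, hH, hH'⟩ := exists_log_square (fun p => γ a b p.1 - γ a' b' p.2)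
      (by have := hc a b; have := hc a' b'; fun_prop) (fun p => sub_ne_zero.2 (hdis _ _))
    have t1 := hθ a b (A a') (fun s => hav a b s a' haa)
    have t2 := hθ a' b' (B b) (fun s => hbv a' b' s b hbb.symm)
    have t3 := hθ a b (B b') (fun s => hbv a b s b' hbb)
    have t4 := hθ a' b' (A a) (fun s => hav a' b' s a haa.symm)
    have u1 := t1.2 (fun s => H (s, 0)) 0 (by fun_prop) (fun s => by simp [hH', h0])
    have u3 := t3.2 (fun s => H (s, 1)) 0 (by fun_prop) (fun s => by simp [hH', h1])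
    have u2 := t2.2 (fun s => H (1, s)) (Real.pi * Complex.I) (by fun_prop)
      (fun s => by rw [exp_add, hH', exp_pi_mul_I]; simp [h1])
    have u4 := t4.2 (fun s => H (0, s)) (Real.pi * Complex.I) (by fun_prop)
      (fun s => by rw [exp_add, hH', exp_pi_mul_I]; simp [h0])
    have nA : A a ≠ A a' := fun h => haa (hA h)
    have nB : B b ≠ B b' := fun h => hbb (hB h)
    have v1 := hk a b (A a') nA (hAB _ _).symm (by simpa [h0, h1] using t1.1)
    have v2 := hk a' b' (B b) (hAB _ _) nB.symm (by simpa [h0, h1] using t2.1)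
    have v3 := hk a b (B b') (hAB _ _) nB (by simpa [h0, h1] using t3.1)
    have v4 := hk a' b' (A a) nA.symm (hAB _ _).symm (by simpa [h0, h1] using t4.1)
    have j1 := hJ (B b) (A a') (hAB _ _).symm
    have j2 := hJ (A a') (A a) nA.symm
    have j3 := hJ (B b') (B b) nB.symm
    have j4 := hJ (A a) (B b') (hAB _ _)
    have : 2 + J (B b) (A a') + J (A a') (A a) + J (B b') (B b) + J (A a) (B b')
        + k a b (A a') + k a' b' (B b) - k a b (B b') - k a' b' (A a) = 0 := by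
      apply int_of_mul_tau
      push_cast
      linear_combination u1 + u2 - u3 - u4 - v1 - v2 + v3 + v4 - j1 - j2 - j3 - j4
    have h2 := congrArg (Int.cast : ℤ → ZMod 2) this
    push_cast at h2
    have h3 : (2 : ZMod 2) = 0 := rfl
    linear_combination h2 + ((k a b (B b') : ZMod 2) + (k a' b' (A a) : ZMod 2) - 1) * h3

end Vale.Agent.P040
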