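import Vale.Agent.P040.Defs
import Vale.Agent.P040.Wind
import Vale.Agent.P040.Core

namespace Vale.Agent.P040

open Finset unitInterval

/-- the edge `ab` -/
def edge {m n : ℕ} (a : Fin m) (b : Fin n) : (completeBipartiteGraph (Fin m) (Fin n)).edgeSet :=
  ⟨s(Sum.inl a, Sum.inr b), by simp⟩

theorem edge_inj {m n : ℕ} {a a' : Fin m} {b b' : Fin n} (h : edge a b = edge a' b') :
    a = a' ∧ b = b' := by
  have := congrArg Subtype.val h
  simpa [edge] using this

theorem edge_surj {m n : ℕ} (e : (completeBipartiteGraph (Fin m) (Fin n)).edgeSet) :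
    ∃ a b, e = edge a b := by
  obtain ⟨e, he⟩ := e
  induction e using Sym2.ind with
  | _ u v =>
    rcases u with u | u <;> rcases v with v | v
    · simp at he
    · exact ⟨u, v, rfl⟩
    · exact ⟨v, u, Subtype.ext Sym2.eq_swap⟩
    · simp at he

theorem exists_oriented {m n : ℕ} (D : Drawing (completeBipartiteGraph (Fin m) (Fin n)))
    (a : Fin m) (b : Fin n) : ∃ γ : I → ℝ × ℝ, Continuous γ ∧ γ 0 = D.pos (Sum.inl a) ∧
      γ 1 = D.pos (Sum.inr b) ∧ ∀ s, s ≠ 0 → s ≠ 1 → γ s ∈ D.edgeInterior (edge a b) := by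
  obtain ⟨u, v, huv, h0, h1⟩ := D.arc_ends (edge a b)
  simp only [edge, Sym2.eq_iff] at huv
  rcases huv with ⟨rfl, rfl⟩ | ⟨rfl, rfl⟩
  · exact ⟨D.arc (edge a b), D.arc_continuous _, h0, h1, fun s hs hs' => ⟨s, hs, hs', rfl⟩⟩
  · refine ⟨fun s => D.arc (edge a b) (σ s), (D.arc_continuous _).comp continuous_symm,
      by simpa using h1, by simpa using h0, fun s hs hs' => ⟨σ s, ?_, ?_, rfl⟩⟩
    · simpa [symm_eq_zero] using hs'
    · simpa [symm_eq_one] using hs

theorem Drawing.not_mem_interior {V : Type} {G : SimpleGraph V} (D : Drawing G) (e : G.edgeSet)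
    (w : V) : D.pos w ∉ D.edgeInterior e := by
  rintro ⟨t, h0, h1, h⟩
  exact D.arc_avoids e t w h0 h1 h

theorem lower {m n : ℕ} (D : Drawing (completeBipartiteGraph (Fin m) (Fin n)))
    (hD : D.FiniteDouble) : d m * d n ≤ D.crossingPoints.ncard := by
  classical
  choose γ hc h0 h1 hint using exists_oriented D
  have hvert : ∀ a b s w, γ a b s = D.pos w → w = Sum.inl a ∨ w = Sum.inr b := by
    intro a b s w h
    by_cases hs : s = 0
    · left; rw [hs, h0] at h; exact (D.pos_injective h).symm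
    by_cases hs' : s = 1
    · right; rw [hs', h1] at h; exact (D.pos_injective h).symm
    · exact absurd (h ▸ hint a b s hs hs') (D.not_mem_interior _ _)
  let c : ℝ × ℝ → ℂ := Complex.equivRealProdCLM.symm
  have hcinj : Function.Injective c := Complex.equivRealProdCLM.symm.injective
  have hcc : Continuous c := Complex.equivRealProdCLM.symm.continuous
  obtain ⟨Y, Z, x, x', hT, hz⟩ := topo (fun a => c (D.pos (Sum.inl a)))
    (fun b => c (D.pos (Sum.inr b)))
    (fun a a' h => Sum.inl_injective (D.pos_injective (hcinj h)))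
    (fun a a' h => Sum.inr_injective (D.pos_injective (hcinj h)))
    (fun a b h => Sum.inl_ne_inr (D.pos_injective (hcinj h)))
    (fun a b s => c (γ a b s)) (fun a b => hcc.comp (hc a b))
    (fun a b => by simp only [h0]) (fun a b => by simp only [h1])
    (fun a b s a' haa h => by
      rcases hvert a b s _ (hcinj h) with h' | h'
      · exact haa (Sum.inl_injective h').symm
      · exact Sum.inl_ne_inr h')
    (fun a b s b' hbb h => by
      rcases hvert a b s _ (hcinj h) with h' | h'
      · exact Sum.inr_ne_inl h'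
      · exact hbb (Sum.inr_injective h').symm)
  let bad : Fin m × Fin m → Finset (Fin n × Fin n) := fun aa => univ.filter fun bb =>
    ∃ z, z ∈ D.edgeInterior (edge aa.1 bb.1) ∧ z ∈ D.edgeInterior (edge aa.2 bb.2)
  have hcore := core m n Y Z x x' hT bad (fun a a' b b' haa hbb hn => by
    refine hz a a' b b' haa hbb fun s t h => hn ?_
    have h := hcinj h
    simp only [bad, mem_filter, mem_univ, true_and]
    have hs0 : s ≠ 0 := by
      rintro rfl
      rw [h0] at h
      rcases hvert a' b' t _ h.symm with h' | h'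
      · exact haa (Sum.inl_injective h')
      · exact Sum.inl_ne_inr h'
    have hs1 : s ≠ 1 := by
      rintro rfl
      rw [h1] at h
      rcases hvert a' b' t _ h.symm with h' | h'
      · exact Sum.inr_ne_inl h'
      · exact hbb (Sum.inr_injective h')
    have ht0 : t ≠ 0 := by
      rintro rfl
      rw [h0] at h
      exact D.not_mem_interior _ _ (h ▸ hint a b s hs0 hs1)
    have ht1 : t ≠ 1 := by
      rintro rfl
      rw [h1] at h
      exact D.not_mem_interior _ _ (h ▸ hint a b s hs0 hs1)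
    exact ⟨γ a b s, hint a b s hs0 hs1, h ▸ hint a' b' t ht0 ht1⟩)
  rw [← Finset.card_sigma] at hcore
  set S := ((univ : Finset (Fin m)).offDiag).sigma bad with hS
  have hex : ∀ p : (_ : Fin m × Fin m) × (Fin n × Fin n), ∃ z, p ∈ S →
      z ∈ D.edgeInterior (edge p.1.1 p.2.1) ∧ z ∈ D.edgeInterior (edge p.1.2 p.2.2) := by
    intro p
    by_cases hp : p ∈ S
    · obtain ⟨z, hz⟩ := (mem_filter.1 (mem_sigma.1 hp).2).2
      exact ⟨z, fun _ => hz⟩
    · exact ⟨0, fun h => absurd h hp⟩
  choose pt hpt using hex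
  have hne : ∀ p ∈ S, p.1.1 ≠ p.1.2 := fun p hp => (mem_offDiag.1 (mem_sigma.1 hp).1).2.2
  have hne' : ∀ p ∈ S, edge p.1.1 p.2.1 ≠ edge p.1.2 p.2.2 :=
    fun p hp h => hne p hp (edge_inj h).1
  have hcard : S.card ≤ (hD.1.toFinset ×ˢ (univ : Finset Bool)).card := by
    refine Finset.card_le_card_of_injOn (fun p => (pt p, decide (p.1.1 < p.1.2))) ?_ ?_
    · intro p hp
      simp only [coe_product, Set.Finite.coe_toFinset, coe_univ, Set.mem_prod, Set.mem_univ,
        and_true]
      exact ⟨_, _, hne' p hp, hpt p hp⟩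
    · rintro ⟨⟨a1, a2⟩, ⟨b1, b2⟩⟩ hp ⟨⟨a3, a4⟩, ⟨b3, b4⟩⟩ hq h
      simp only [Prod.mk.injEq, decide_eq_decide] at h
      obtain ⟨hz, hlt⟩ := h
      have p1 := hpt _ hp
      have p2 := hpt _ hq
      rw [← hz] at p2
      have n1 := hne _ hp
      have n2 := hne _ hq
      have q1 := hD.2 _ _ _ _ p1.1 p1.2 p2.1
      have q2 := hD.2 _ _ _ _ p1.1 p1.2 p2.2
      simp only at n1 n2 q1 q2
      rcases q1 with q1 | q1 | q1
      · exact absurd q1 (hne' _ hp)
      · rcases q2 with q2 | q2 | q2
        · exact absurd q2 (hne' _ hp)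
        · exact absurd (q1.symm.trans q2) (hne' _ hq)
        · obtain ⟨rfl, rfl⟩ := edge_inj q1
          obtain ⟨rfl, rfl⟩ := edge_inj q2
          rfl
      · rcases q2 with q2 | q2 | q2
        · exact absurd q2 (hne' _ hp)
        · obtain ⟨rfl, rfl⟩ := edge_inj q1
          obtain ⟨rfl, rfl⟩ := edge_inj q2
          exfalso
          rcases lt_or_gt_of_ne n1 with h | h
          · exact lt_asymm h (hlt.1 h)
          · exact lt_asymm h (hlt.2 h)
        · exact absurd (q1.symm.trans q2) (hne' _ hq)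
  rw [card_product, card_univ, Fintype.card_bool, ← Set.ncard_eq_toFinset_card _ hD.1] at hcard
  unfold d
  omega

end Vale.Agent.P040
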