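import Vale.Agent.P040.Biv

namespace Vale.Agent.P040

open Polynomial Finset

variable {K : Type} [Field K]

/-- the weighted functional -/
noncomputable def lam {n : ℕ} (t : Fin n → K) (W : Fin n → Fin n → K) : K[X][X] →ₗ[K] K where
  toFun f := ∑ b, ∑ b', W b b' * (wt t b * wt t b' * (t b - t b')) * f.evalEval (t b) (t b')
  map_add' f g := by
    simp only [evalEval_add, mul_add, Finset.sum_add_distrib]
  map_smul' c f := by
    simp only [evalEval_smul, smul_eq_mul, RingHom.id_apply, Finset.mul_sum]
    exact Finset.sum_congr rfl fun _ _ => Finset.sum_congr rfl fun _ _ => by ring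

theorem lam_apply {n : ℕ} (t : Fin n → K) (W : Fin n → Fin n → K) (f : K[X][X]) :
    lam t W f
      = ∑ b, ∑ b', W b b' * (wt t b * wt t b' * (t b - t b')) * f.evalEval (t b) (t b') := rfl

theorem bd_X : Bd 2 1 (C X : K[X][X]) := by
  have := bd_monomial (K := K) 1 0 1
  simpa [monomial_one_one_eq_X] using this

theorem bd_diag : Bd 2 2 (C X - X : K[X][X]) := by
  refine (bd_X.mono le_rfl (by omega)).sub ?_
  have := bd_monomial (K := K) 0 1 1
  have h : (monomial 1 (monomial 0 (1 : K)) : K[X][X]) = X := by
    simp [monomial_one_one_eq_X]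
  rw [h] at this
  exact this.mono (by omega) le_rfl

theorem lam_row {n p q : ℕ} {t : Fin n → K} (ht : Function.Injective t) (x : Fin n → K)
    {f : K[X][X]} (h : Bd p q f) (hq : q + 1 ≤ n - 1) : lam t (fun b _ => x b) f = 0 := by
  rw [lam_apply]
  refine Finset.sum_eq_zero fun b _ => ?_
  have := (bd_diag.mul h).sum_wt_right ht (by omega) (t b)
  calc _ = x b * wt t b * ∑ b', wt t b' * ((C X - X) * f).evalEval (t b) (t b') := by
        rw [Finset.mul_sum]
        refine Finset.sum_congr rfl fun b' _ => ?_
        simp only [evalEval_mul, evalEval_sub, evalEval_C, eval_X, evalEval_X]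
        ring
    _ = 0 := by rw [this, mul_zero]

theorem lam_col {n p q : ℕ} {t : Fin n → K} (ht : Function.Injective t) (x : Fin n → K)
    {f : K[X][X]} (h : Bd p q f) (hp : p + 1 ≤ n - 1) : lam t (fun _ b' => x b') f = 0 := by
  rw [lam_apply, Finset.sum_comm]
  refine Finset.sum_eq_zero fun b' _ => ?_
  have := (bd_diag.mul h).sum_wt_left ht (by omega) (t b')
  calc _ = x b' * wt t b' * ∑ b, wt t b * ((C X - X) * f).evalEval (t b) (t b') := by
        rw [Finset.mul_sum]
        refine Finset.sum_congr rfl fun b _ => ?_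
        simp only [evalEval_mul, evalEval_sub, evalEval_C, eval_X, evalEval_X]
        ring
    _ = 0 := by rw [this, mul_zero]

theorem nondeg {n A B : ℕ} {t : Fin n → K} (ht : Function.Injective t) (h2 : (2 : K) = 0)
    (hAB : A + B + 1 = n) (hBA : B ≤ A) (hAB' : A ≤ B + 1)
    (ind1 : ∀ a : Fin n → K, ∑ b, t b * a b ^ 2 = 0 → ∀ b, a b = 0)
    (rl : ∀ a : Fin n → Fin n → K, ∑ b, ∑ b', t b * wt t b * wt t b' * a b b' ^ 2 = 0 →
      ∀ i ≤ A, ∀ j ≤ B, ∑ b, ∑ b', a b b' * wt t b * wt t b' * t b ^ i * t b' ^ j = 0)
    (T : Fin n → Fin n → K) (hT : ∀ b b', T b b' ^ 2 = T b b')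
    (hT' : ∀ b b', b ≠ b' → T b b' + T b' b = 1) :
    ∀ k r l, k + r = B → l + r = A → ∀ E : K[X][X], Bd k l E →
      (∀ G, Bd (A + r) (B + r) G → lam t T (E * G) = 0) → E = 0 := by
  intro k
  induction k with
  | zero => exact fun r l _ _ E hE _ => hE.eq_zero_left
  | succ k ih =>
    intro r l hk hl E hE horth
    obtain ⟨l, rfl⟩ : ∃ l', l = l' + 1 := ⟨l - 1, by omega⟩
    obtain ⟨G, hG, hG'⟩ := hE.exists_swap
    -- step 1
    have hdiag : ∀ b, E.evalEval (t b) (t b) = 0 := by
      have h1 := horth G (hG.mono (by omega) (by omega))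
      rw [lam_apply] at h1
      set φ : Fin n → Fin n → K := fun b b' =>
        wt t b * wt t b' * (E.evalEval (t b) (t b') * E.evalEval (t b') (t b)) with hφ
      have e1 : ∑ b, ∑ b', T b b' * (wt t b * wt t b' * (t b - t b')) *
          (E * G).evalEval (t b) (t b')
          = ∑ b, ∑ b', T b b' * t b * φ b b' - ∑ b, ∑ b', T b b' * t b' * φ b b' := by
        simp only [← Finset.sum_sub_distrib]
        refine Finset.sum_congr rfl fun b _ => Finset.sum_congr rfl fun b' _ => ?_
        simp only [hφ, evalEval_mul, hG']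
        ring
      have e2 : ∑ b, ∑ b', T b b' * t b' * φ b b' = ∑ b, ∑ b', T b' b * t b * φ b b' := by
        rw [Finset.sum_comm]
        refine Finset.sum_congr rfl fun b _ => Finset.sum_congr rfl fun b' _ => ?_
        simp only [hφ]
        ring
      have e3 : ∀ b, ∑ b', φ b b' = 0 := by
        intro b
        have := (hE.mul hG).sum_wt_right ht (by omega) (t b)
        calc _ = wt t b * ∑ b', wt t b' * (E * G).evalEval (t b) (t b') := by
              rw [Finset.mul_sum]
              refine Finset.sum_congr rfl fun b' _ => ?_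
              simp only [hφ, evalEval_mul, hG']
              ring
          _ = 0 := by rw [this, mul_zero]
      have e4 : ∀ b, ∑ b', (T b b' * t b * φ b b' - T b' b * t b * φ b b')
          = t b * (wt t b * E.evalEval (t b) (t b)) ^ 2 := by
        intro b
        have : ∀ b', T b b' * t b * φ b b' - T b' b * t b * φ b b'
            = t b * φ b b' - if b = b' then t b * φ b b' else 0 := by
          intro b'
          split_ifs with h
          · subst h; ring
          · have := hT' b b' h
            linear_combination (t b * φ b b') * this - (T b' b * t b * φ b b') * h2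
        simp only [this, Finset.sum_sub_distrib, ← Finset.mul_sum, e3, Finset.sum_ite_eq,
          mem_univ, if_true]
        simp only [hφ]
        linear_combination (-(t b * (wt t b * E.evalEval (t b) (t b)) ^ 2)) * h2
      rw [e1, e2, ← Finset.sum_sub_distrib] at h1
      simp only [← Finset.sum_sub_distrib, e4] at h1
      intro b
      exact (mul_eq_zero.1 (ind1 _ h1 b)).resolve_left (wt_ne_zero ht b)
    obtain ⟨E1, rfl⟩ := hE.exists_div ht (by omega) hdiag
    have hE1 : Bd k l E1 := hE.div
    suffices h : E1 = 0 by rw [h, mul_zero]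
    refine ih (r + 1) l (by omega) (by omega) E1 hE1 fun G hG => ?_
    have key : ∀ i ≤ A + r, ∀ j ≤ B + r, ∀ c : K,
        lam t T (E1 * monomial j (monomial i c)) = 0 := by
      intro i hi j hj c
      obtain ⟨i1, i2, rfl, hi1, hi2⟩ : ∃ i1 i2, i = i1 + i2 ∧ i1 ≤ r ∧ i2 ≤ A :=
        ⟨min i r, i - min i r, by omega, by omega, by omega⟩
      obtain ⟨j1, j2, rfl, hj1, hj2⟩ : ∃ j1 j2, j = j1 + j2 ∧ j1 ≤ r ∧ j2 ≤ B :=
        ⟨min j r, j - min j r, by omega, by omega, by omega⟩
      have h1 := horth (monomial (2 * j1) (monomial (2 * i1 + 1) 1) * E1)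
        (((bd_monomial _ _ _).mul hE1).mono (by omega) (by omega))
      rw [lam_apply] at h1
      have h3 := rl (fun b b' => T b b' * (t b - t b') * E1.evalEval (t b) (t b')
        * t b ^ i1 * t b' ^ j1) (by
          rw [← neg_eq_zero, ← h1]
          simp only [← Finset.sum_neg_distrib]
          refine Finset.sum_congr rfl fun b _ => Finset.sum_congr rfl fun b' _ => ?_
          simp only [evalEval_mul, evalEval_sub, evalEval_C, eval_X, evalEval_X, evalEval_mon,
            mul_pow, hT]
          ring) i2 hi2 j2 hj2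
      rw [lam_apply, ← mul_zero c, ← h3]
      simp only [Finset.mul_sum]
      refine Finset.sum_congr rfl fun b _ => Finset.sum_congr rfl fun b' _ => ?_
      simp only [evalEval_mul, evalEval_mon]
      ring
    rw [hG.eq_toPoly, toPoly_apply, Finset.mul_sum, map_sum]
    refine Finset.sum_eq_zero fun ij _ => key _ ?_ _ ?_ _
    · have := ij.1.2; omega
    · have := ij.2.2; omega

end Vale.Agent.P040
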