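import Vale.Agent.P040.Lower

namespace Vale.Agent.P040

open Finset unitInterval

/-- coordinates on the axes -/
noncomputable def uu (k : ℕ) : ℝ := (-2) ^ k

theorem uu_ne (k : ℕ) : uu k ≠ 0 := pow_ne_zero _ (by norm_num)

theorem uu_gap {x : ℝ} {a a' : ℕ} (h : a < a') (h1 : 0 < x / uu a) (h2 : 0 < x / uu a') :
    2 * (x / uu a') ≤ x / uu a ∧ a % 2 = a' % 2 := by
  obtain ⟨k, rfl⟩ : ∃ k, a' = a + (k + 1) := ⟨a' - a - 1, by omega⟩
  have e : x / uu a = x / uu (a + (k + 1)) * (-2) ^ (k + 1) := by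
    have := uu_ne a
    unfold uu at *
    rw [pow_add (-2 : ℝ) a]
    field_simp
  have hpos : (0 : ℝ) < (-2) ^ (k + 1) := by
    rw [e] at h1
    by_contra hc
    have := mul_nonpos_of_nonneg_of_nonpos h2.le (not_lt.1 hc)
    linarith
  have hev : Even (k + 1) := by
    by_contra hc
    have := (Nat.not_even_iff_odd.1 hc).pow_neg (show (-2 : ℝ) < 0 by norm_num)
    linarith
  refine ⟨?_, by obtain ⟨j, hj⟩ := hev; omega⟩
  rw [e, hev.neg_pow, mul_comm]
  refine mul_le_mul_of_nonneg_left ?_ h2.le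
  calc (2 : ℝ) = 2 ^ 1 := by norm_num
    _ ≤ 2 ^ (k + 1) := pow_le_pow_right₀ (by norm_num) (by omega)

theorem uu_inj : Function.Injective uu := by
  intro a a' h
  by_contra hne
  have h1 : 0 < uu a / uu a := by rw [div_self (uu_ne a)]; norm_num
  have h2 : 0 < uu a / uu a' := by rwa [← h]
  rcases lt_or_gt_of_ne hne with hlt | hlt
  · have := (uu_gap hlt h1 h2).1
    rw [← h] at this
    linarith
  · have := (uu_gap hlt h2 h1).1
    rw [← h] at this
    linarith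

/-- vertex positions -/
noncomputable def zpos {m n : ℕ} : Fin m ⊕ Fin n → ℝ × ℝ :=
  Sum.elim (fun a => (uu a, 0)) (fun b => (0, uu b))

/-- straight segments -/
noncomputable def zarc {m n : ℕ} (e : (completeBipartiteGraph (Fin m) (Fin n)).edgeSet) (t : I) :
    ℝ × ℝ :=
  ((1 - t) * (Sym2.lift ⟨fun p q => zpos p + zpos q, fun _ _ => add_comm _ _⟩ e.1).1,
    t * (Sym2.lift ⟨fun p q => zpos p + zpos q, fun _ _ => add_comm _ _⟩ e.1).2)

theorem zarc_edge {m n : ℕ} (a : Fin m) (b : Fin n) (t : I) :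
    zarc (edge a b) t = ((1 - t) * uu a, t * uu b) := by
  simp [zarc, edge, zpos]

/-- the drawing of Zarankiewicz -/
noncomputable def zdraw (m n : ℕ) : Drawing (completeBipartiteGraph (Fin m) (Fin n)) where
  pos := zpos
  pos_injective := by
    rintro (a | a) (b | b) h
    · simp only [zpos, Sum.elim_inl, Prod.mk.injEq, and_true] at h
      rw [Fin.ext (uu_inj h)]
    · simp [zpos, uu_ne] at h
    · simp [zpos, uu_ne] at h
    · simp only [zpos, Sum.elim_inr, Prod.mk.injEq, true_and] at h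
      rw [Fin.ext (uu_inj h)]
  arc := zarc
  arc_continuous e := by
    unfold zarc
    fun_prop
  arc_injective e := by
    obtain ⟨a, b, rfl⟩ := edge_surj e
    intro s t h
    rw [zarc_edge, zarc_edge] at h
    exact Subtype.ext (mul_right_cancel₀ (uu_ne b) (congrArg Prod.snd h))
  arc_ends e := by
    obtain ⟨a, b, rfl⟩ := edge_surj e
    exact ⟨Sum.inl a, Sum.inr b, rfl, by simp [zarc_edge, zpos], by simp [zarc_edge, zpos]⟩
  arc_avoids e t w h0 h1 := by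
    obtain ⟨a, b, rfl⟩ := edge_surj e
    rw [zarc_edge]
    rcases w with w | w
    · intro h
      have := congrArg Prod.snd h
      simp only [zpos, Sum.elim_inl, mul_eq_zero, uu_ne, or_false] at this
      exact h0 (Subtype.ext this)
    · intro h
      have := congrArg Prod.fst h
      simp only [zpos, Sum.elim_inr, mul_eq_zero, uu_ne, or_false] at this
      exact h1 (Subtype.ext (by simp only [Set.Icc.coe_one]; linarith))

theorem mem_zint {m n : ℕ} (a : Fin m) (b : Fin n) (z : ℝ × ℝ) :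
    z ∈ (zdraw m n).edgeInterior (edge a b) ↔
      0 < z.1 / uu a ∧ 0 < z.2 / uu b ∧ z.1 / uu a + z.2 / uu b = 1 := by
  have ha := uu_ne a
  have hb := uu_ne b
  constructor
  · rintro ⟨t, h0, h1, rfl⟩
    change 0 < (zarc _ t).1 / _ ∧ 0 < (zarc _ t).2 / _ ∧ (zarc _ t).1 / _ + (zarc _ t).2 / _ = 1
    rw [zarc_edge]
    simp only [mul_div_cancel_right₀ _ ha, mul_div_cancel_right₀ _ hb]
    have h2 : (t : ℝ) ≠ 0 := fun h => h0 (Subtype.ext h)
    have h3 : (t : ℝ) ≠ 1 := fun h => h1 (Subtype.ext h)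
    exact ⟨sub_pos.2 (lt_of_le_of_ne t.2.2 h3), lt_of_le_of_ne t.2.1 h2.symm, by ring⟩
  · rintro ⟨h1, h2, h3⟩
    refine ⟨⟨z.2 / uu b, h2.le, by linarith⟩, fun h => ?_, fun h => ?_, ?_⟩
    · have := congrArg Subtype.val h
      simp only [Set.Icc.coe_zero] at this
      linarith
    · have := congrArg Subtype.val h
      simp only [Set.Icc.coe_one] at this
      linarith
    · change zarc _ _ = z
      rw [zarc_edge]
      refine Prod.ext ?_ ?_
      · simp only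
        rw [show 1 - z.2 / uu b = z.1 / uu a by linarith, div_mul_cancel₀ _ ha]
      · simp only
        rw [div_mul_cancel₀ _ hb]

theorem gap_or {k : ℕ} {x : ℝ} {a a' : Fin k} (h : a ≠ a') (h1 : 0 < x / uu a)
    (h2 : 0 < x / uu a') :
    (a < a' ∧ 2 * (x / uu a') ≤ x / uu a ∧ (a : ℕ) % 2 = a' % 2) ∨
      (a' < a ∧ 2 * (x / uu a) ≤ x / uu a' ∧ (a' : ℕ) % 2 = a % 2) := by
  rcases lt_or_gt_of_ne h with hlt | hlt
  · exact Or.inl ⟨hlt, uu_gap hlt h1 h2⟩
  · exact Or.inr ⟨hlt, uu_gap hlt h2 h1⟩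

theorem cross_ne {m n : ℕ} {a a' : Fin m} {b b' : Fin n} {z : ℝ × ℝ} (hne : edge a b ≠ edge a' b')
    (h : z ∈ (zdraw m n).edgeInterior (edge a b))
    (h' : z ∈ (zdraw m n).edgeInterior (edge a' b')) : a ≠ a' ∧ b ≠ b' := by
  rw [mem_zint] at h h'
  obtain ⟨h1, h2, h3⟩ := h
  obtain ⟨h4, h5, h6⟩ := h'
  constructor
  · rintro rfl
    have hb : b ≠ b' := fun h => hne (by rw [h])
    rcases gap_or hb h2 h5 with h | h <;> linarith [h.2.1]
  · rintro rfl
    have ha : a ≠ a' := fun h => hne (by rw [h])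
    rcases gap_or ha h1 h4 with h | h <;> linarith [h.2.1]

theorem sum_half (r : ℕ) : ∑ k ∈ range r, k / 2 = d r := by
  induction r with
  | zero => simp [d]
  | succ r ih =>
    rw [sum_range_succ, ih]
    unfold d
    obtain ⟨j, rfl | rfl⟩ := Nat.even_or_odd' r
    · rcases j with _ | j
      · simp
      · rw [show 2 * (j + 1) / 2 = j + 1 by omega, show (2 * (j + 1) - 1) / 2 = j by omega,
          show (2 * (j + 1) + 1) / 2 = j + 1 by omega,
          show (2 * (j + 1) + 1 - 1) / 2 = j + 1 by omega]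
        ring
    · rw [show (2 * j + 1) / 2 = j by omega, show (2 * j + 1 - 1) / 2 = j by omega,
        show (2 * j + 1 + 1) / 2 = j + 1 by omega, show (2 * j + 1 + 1 - 1) / 2 = j by omega]
      ring

theorem det_ne {x y α β α' β' : ℝ} (h : x * α + y * β = 1) (h' : x * α' + y * β' = 1)
    (hne : x * α ≠ x * α') : α' * β - α * β' ≠ 0 := by
  intro h0
  apply hne
  linear_combination (x * α') * h - (x * α) * h' - (x * y) * h0

theorem zcount (m n : ℕ) :
    (zdraw m n).crossingPoints.Finite ∧ (zdraw m n).crossingPoints.ncard ≤ d m * d n := by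
  classical
  have hex : ∀ z : ℝ × ℝ, ∃ p : (ℕ × ℕ) × (ℕ × ℕ), z ∈ (zdraw m n).crossingPoints →
      p.1.1 < p.1.2 ∧ p.1.2 < m ∧ p.1.1 % 2 = p.1.2 % 2 ∧
      p.2.1 < p.2.2 ∧ p.2.2 < n ∧ p.2.1 % 2 = p.2.2 % 2 ∧
      z.1 / uu p.1.1 + z.2 / uu p.2.2 = 1 ∧ z.1 / uu p.1.2 + z.2 / uu p.2.1 = 1 ∧
      z.1 / uu p.1.1 ≠ z.1 / uu p.1.2 := by
    intro z
    by_cases hz : z ∈ (zdraw m n).crossingPoints
    · obtain ⟨e, f, hef, he, hf⟩ := hz
      obtain ⟨a, b, rfl⟩ := edge_surj e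
      obtain ⟨a', b', rfl⟩ := edge_surj f
      obtain ⟨ha, hb⟩ := cross_ne hef he hf
      rw [mem_zint] at he hf
      obtain ⟨h1, h2, h3⟩ := he
      obtain ⟨h4, h5, h6⟩ := hf
      rcases gap_or ha h1 h4 with h | h <;> rcases gap_or hb h2 h5 with h' | h'
      · linarith [h.2.1, h'.2.1]
      · exact ⟨((a, a'), (b', b)), fun _ => ⟨h.1, a'.2, h.2.2, h'.1, b.2, h'.2.2, h3, h6,
          by have := h.2.1; intro h0; simp only at h0; linarith⟩⟩
      · exact ⟨((a', a), (b, b')), fun _ => ⟨h.1, a.2, h.2.2, h'.1, b'.2, h'.2.2, h6, h3,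
          by have := h.2.1; intro h0; simp only at h0; linarith⟩⟩
      · linarith [h.2.1, h'.2.1]
    · exact ⟨0, fun h => absurd h hz⟩
  choose p hp using hex
  let S : ℕ → Finset ((_ : ℕ) × ℕ) := fun r => (range r).sigma fun k => range (k / 2)
  have hS : ∀ r, (S r).card = d r := fun r => by simp [S, card_sigma, sum_half]
  let F : ℝ × ℝ → ((_ : ℕ) × ℕ) × ((_ : ℕ) × ℕ) := fun z =>
    (⟨(p z).1.2, (p z).1.1 / 2⟩, ⟨(p z).2.2, (p z).2.1 / 2⟩)
  have hmaps : ∀ z ∈ (zdraw m n).crossingPoints, F z ∈ ((S m ×ˢ S n : Finset _) : Set _) := by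
    intro z hz
    obtain ⟨h1, h2, h3, h4, h5, h6, -⟩ := hp z hz
    simp only [F, S, coe_product, Set.mem_prod, mem_coe, mem_sigma, mem_range]
    omega
  have hinj : Set.InjOn F (zdraw m n).crossingPoints := by
    intro z hz w hw h
    obtain ⟨h1, h2, h3, h4, h5, h6, h7, h8, h9⟩ := hp z hz
    obtain ⟨k1, k2, k3, k4, k5, k6, k7, k8, k9⟩ := hp w hw
    simp only [F, Prod.mk.injEq, Sigma.mk.injEq, heq_eq_eq] at h
    obtain ⟨⟨e1, e2⟩, e3, e4⟩ := h
    have e5 : (p z).1.1 = (p w).1.1 := by omega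
    have e6 : (p z).2.1 = (p w).2.1 := by omega
    rw [← e1, ← e6] at k8
    rw [← e3, ← e5] at k7
    simp only [div_eq_mul_inv] at h7 h8 h9 k7 k8
    have hdet := det_ne h7 h8 h9
    refine Prod.ext (mul_left_cancel₀ hdet ?_) (mul_left_cancel₀ hdet ?_)
    · linear_combination (uu (p z).2.2)⁻¹ * (h8 - k8) - (uu (p z).2.1)⁻¹ * (h7 - k7)
    · linear_combination (uu (p z).1.2)⁻¹ * (h7 - k7) - (uu (p z).1.1)⁻¹ * (h8 - k8)
  refine ⟨Set.Finite.of_injOn hmaps hinj (Finset.finite_toSet _), ?_⟩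
  have := Set.ncard_le_ncard_of_injOn F hmaps hinj (Finset.finite_toSet _)
  rwa [Set.ncard_coe_finset, card_product, hS, hS] at this

theorem zdouble (m n : ℕ) : (zdraw m n).FiniteDouble := by
  refine ⟨(zcount m n).1, fun e f g z he hf hg => ?_⟩
  by_contra hc
  push Not at hc
  obtain ⟨a1, b1, rfl⟩ := edge_surj e
  obtain ⟨a2, b2, rfl⟩ := edge_surj f
  obtain ⟨a3, b3, rfl⟩ := edge_surj g
  obtain ⟨ha12, hb12⟩ := cross_ne hc.1 he hf
  obtain ⟨ha13, hb13⟩ := cross_ne hc.2.1 he hg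
  obtain ⟨ha23, hb23⟩ := cross_ne hc.2.2 hf hg
  rw [mem_zint] at he hf hg
  obtain ⟨h1, h2, h3⟩ := he
  obtain ⟨h4, h5, h6⟩ := hf
  obtain ⟨h7, h8, h9⟩ := hg
  rcases gap_or ha12 h1 h4 with ⟨-, c1, -⟩ | ⟨-, c1, -⟩ <;>
  rcases gap_or ha13 h1 h7 with ⟨-, c2, -⟩ | ⟨-, c2, -⟩ <;>
  rcases gap_or ha23 h4 h7 with ⟨-, c3, -⟩ | ⟨-, c3, -⟩ <;>
  rcases gap_or hb12 h2 h5 with ⟨-, c4, -⟩ | ⟨-, c4, -⟩ <;>
  rcases gap_or hb13 h2 h8 with ⟨-, c5, -⟩ | ⟨-, c5, -⟩ <;>
  rcases gap_or hb23 h5 h8 with ⟨-, c6, -⟩ | ⟨-, c6, -⟩ <;> linarith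

/-- affine chart -/
noncomputable def affChart (α β α' β' : ℝ) (h : α' * β - α * β' ≠ 0) : (ℝ × ℝ) ≃ₜ (ℝ × ℝ) where
  toFun w := (w.1 * α' + w.2 * β' - 1, w.1 * α + w.2 * β - 1)
  invFun y := ((β * (y.1 + 1) - β' * (y.2 + 1)) / (α' * β - α * β'),
    (α' * (y.2 + 1) - α * (y.1 + 1)) / (α' * β - α * β'))
  left_inv w := by
    refine Prod.ext ?_ ?_ <;> simp only <;> rw [div_eq_iff h] <;> ring
  right_inv y := by
    have e := mul_inv_cancel₀ h
    refine Prod.ext ?_ ?_ <;> simp only [div_eq_mul_inv]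
    · linear_combination (y.1 + 1) * e
    · linear_combination (y.2 + 1) * e
  continuous_toFun := by fun_prop
  continuous_invFun := by fun_prop

theorem zadm (m n : ℕ) : (zdraw m n).Admissible := by
  refine ⟨zdouble m n, fun e f z hef he hf => ?_⟩
  obtain ⟨a, b, rfl⟩ := edge_surj e
  obtain ⟨a', b', rfl⟩ := edge_surj f
  obtain ⟨ha, hb⟩ := cross_ne hef he hf
  rw [mem_zint] at he hf
  obtain ⟨h1, h2, h3⟩ := he
  obtain ⟨h4, h5, h6⟩ := hf
  have hne : z.1 / uu a ≠ z.1 / uu a' := by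
    rcases gap_or ha h1 h4 with h | h <;> intro h0 <;> linarith [h.2.1]
  have hdet := det_ne (x := z.1) (y := z.2) (α := (uu a)⁻¹) (β := (uu b)⁻¹) (α' := (uu a')⁻¹)
    (β' := (uu b')⁻¹) h3 h6 hne
  let U : Set (ℝ × ℝ) :=
    {w | 0 < w.1 / uu a ∧ 0 < w.2 / uu b ∧ 0 < w.1 / uu a' ∧ 0 < w.2 / uu b'}
  have o1 : ∀ c : ℝ, IsOpen {w : ℝ × ℝ | 0 < w.1 / c} :=
    fun c => isOpen_lt continuous_const (by fun_prop)
  have o2 : ∀ c : ℝ, IsOpen {w : ℝ × ℝ | 0 < w.2 / c} :=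
    fun c => isOpen_lt continuous_const (by fun_prop)
  have hU : IsOpen U := (o1 _).inter ((o2 _).inter ((o1 _).inter (o2 _)))
  refine ⟨(affChart _ _ _ _ hdet).toOpenPartialHomeomorph.restrOpen U hU,
    ⟨Set.mem_univ _, h1, h2, h4, h5⟩, ?_, ?_⟩
  · change (z.1 / uu a' + z.2 / uu b' - 1, z.1 / uu a + z.2 / uu b - 1) = (0, 0)
    rw [sub_eq_zero.2 h3, sub_eq_zero.2 h6]
  · rintro w ⟨-, k1, k2, k3, k4⟩
    rw [mem_zint, mem_zint]
    change (_ ↔ w.1 / uu a + w.2 / uu b - 1 = 0) ∧ (_ ↔ w.1 / uu a' + w.2 / uu b' - 1 = 0)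
    simp only [sub_eq_zero, k1, k2, k3, k4, true_and, and_self]

end Vale.Agent.P040
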